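import Vale.Agent.P218CQ.Geo
import Vale.Agent.P218CO.JH
import Vale.Agent.P218CO.Cpt

/-! # The collar data as Hoelder functions on the closed surface (helper40) -/

open Set Filter Metric Topology
open scoped ContDiff

noncomputable section

set_option linter.unusedSectionVars false
set_option linter.unusedVariables false

namespace Vale.Agent.P218CQ

open Vale.Agent.P218VA Vale.Agent.P218MP Vale.Agent.P272.K.LIN Vale.Agent.P218CO
open Vale.Agent.P218GA (pol dw dth)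

variable {σ M : Type} [TopologicalSpace M] [ChartedSpace E2 M] {𝒞 : Cov E2 M}
  {V : Type} [NormedAddCommGroup V] [NormedSpace ℝ V]

/-- the cutoff which is `1` on the levels `[s + 2, s + 7]` and supported in `[s + 1, s + 8]` -/
def kp (s : ℝ) (y : E2) : ℝ := Ends.stp (s + 1) y - Ends.stp (s + 7) y

lemma contDiff_kp (s : ℝ) : ContDiff ℝ ∞ (kp s) := (Ends.contDiff_stp _).sub (Ends.contDiff_stp _)

lemma abs_kp_le (s : ℝ) (y : E2) : |kp s y| ≤ 1 := by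
  have h1 := Ends.stp_mem (s + 1) y
  have h2 := Ends.stp_mem (s + 7) y
  rw [kp, abs_le]
  constructor <;> linarith [h1.1, h1.2, h2.1, h2.2]

lemma kp_out {s : ℝ} {y : E2} (h : Real.exp (-(s + 1)) ≤ ‖y‖) : kp s y = 0 := by
  rw [kp, Ends.stp_eq_zero h,
    Ends.stp_eq_zero ((Real.exp_le_exp.2 (by linarith)).trans h), sub_zero]

lemma kp_in {s : ℝ} {y : E2} (h : ‖y‖ ≤ Real.exp (-(s + 8))) : kp s y = 0 := by
  rw [kp, Ends.stp_eq_one (h.trans (Real.exp_le_exp.2 (by linarith))),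
    Ends.stp_eq_one (h.trans (Real.exp_le_exp.2 (by linarith))), sub_self]

lemma kp_pol (s : ℝ) (p : ℝ × ℝ) : kp s (pol p) = st (s + 1) p.1 - st (s + 7) p.1 := by
  rw [kp, Ends.stp_pol, Ends.stp_pol]

lemma kp_one {s : ℝ} {p : ℝ × ℝ} (hp : p.1 ∈ Icc (s + 2) (s + 7)) : kp s (pol p) = 1 := by
  rw [kp_pol, st_one (by linarith [hp.1]), st_zero hp.2, sub_zero]

/-- a point of the plane is outside the support of the cutoff or in the collar -/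
lemma kp_cases (s : ℝ) (y : E2) : (∀ᶠ z in 𝓝 y, kp s z = 0) ∨
    ∃ p : ℝ × ℝ, p.1 ∈ Icc (s + 1) (s + 8) ∧ pol p = y := by
  by_cases h1 : Real.exp (-(s + 1)) < ‖y‖
  · exact Or.inl ((continuous_norm.continuousAt.eventually (eventually_gt_nhds h1)).mono
      fun z hz => kp_out hz.le)
  by_cases h2 : ‖y‖ < Real.exp (-(s + 8))
  · exact Or.inl ((continuous_norm.continuousAt.eventually (eventually_lt_nhds h2)).mono
      fun z hz => kp_in hz.le)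
  have hy : y ≠ 0 := norm_pos_iff.1 ((Real.exp_pos _).trans_le (not_lt.1 h2))
  obtain ⟨p, rfl⟩ : ∃ p, pol p = y := ⟨_, pol_lp hy⟩
  rw [norm_pol, Real.exp_lt_exp] at h1 h2
  exact Or.inr ⟨p, ⟨by linarith, by linarith⟩, rfl⟩

/-- `C¹` bounds on the support of the cutoff -/
structure ColB (s η : ℝ) (k : ℝ × ℝ → V) : Prop where
  per : Per k
  bd : ∀ p : ℝ × ℝ, p.1 ∈ Icc (s + 1) (s + 8) →
    DifferentiableAt ℝ k p ∧ ‖k p‖ ≤ η ∧ ‖fderiv ℝ k p‖ ≤ η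

lemma exists_plane_lip (s : ℝ) : ∃ K, 1 ≤ K ∧ ∀ (k : ℝ × ℝ → V) (η : ℝ), 0 ≤ η → ColB s η k →
    (∀ y, ‖kp s y • k (lp y)‖ ≤ η) ∧
      ∀ y z, ‖kp s y • k (lp y) - kp s z • k (lp z)‖ ≤ K * η * ‖y - z‖ := by
  obtain ⟨A, hA⟩ := (isCompact_closedBall (0 : E2) (Real.exp (-(s + 1)))).exists_bound_of_continuousOn
    (f := fderiv ℝ (kp s)) ((contDiff_kp s).continuous_fderiv (by simp)).continuousOn
  have he := Real.exp_pos (s + 8)
  refine ⟨1 + |A| + Real.exp (s + 8), by linarith [abs_nonneg A], fun k η hη h => ⟨fun y => ?_,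
    fun y z => ?_⟩⟩
  · rcases kp_cases s y with h1 | ⟨p, hp, rfl⟩
    · rw [h1.self_of_nhds, zero_smul, norm_zero]; exact hη
    · rw [norm_smul, h.per.lp_pol, Real.norm_eq_abs]
      exact (mul_le_mul (abs_kp_le _ _) (h.bd p hp).2.1 (norm_nonneg _) zero_le_one).trans_eq
        (one_mul _)
  have key : ∀ y, DifferentiableAt ℝ (fun y => kp s y • k (lp y)) y ∧
      ‖fderiv ℝ (fun y => kp s y • k (lp y)) y‖ ≤ (1 + |A| + Real.exp (s + 8)) * η := by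
    intro y
    rcases kp_cases s y with h1 | ⟨p, hp, rfl⟩
    · have h2 : (fun y => kp s y • k (lp y)) =ᶠ[𝓝 y] fun _ => 0 :=
        h1.mono fun z hz => by simp only [hz, zero_smul]
      refine ⟨(differentiableAt_const _).congr_of_eventuallyEq h2, ?_⟩
      rw [h2.fderiv_eq, fderiv_fun_const, Pi.zero_apply, norm_zero]
      positivity
    · obtain ⟨h1, h2, h3⟩ := h.bd p hp
      have h4 := ((contDiff_kp s).differentiable (by simp) (pol p)).hasFDerivAt.smul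
        (h.per.hasFDerivAt_lp h1.hasFDerivAt)
      refine ⟨h4.differentiableAt, ?_⟩
      refine (congrArg norm h4.fderiv).trans_le ((norm_add_le _ _).trans ?_)
      have h5 : ‖dlp (pol p)‖ ≤ Real.exp (s + 8) := by
        refine (norm_dlp_le _).trans ?_
        rw [norm_pol, ← Real.exp_neg, neg_neg]
        exact Real.exp_le_exp.2 hp.2
      have h6 : ‖fderiv ℝ (kp s) (pol p)‖ ≤ |A| := (hA _ (by
        rw [mem_closedBall_zero_iff, norm_pol]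
        exact Real.exp_le_exp.2 (neg_le_neg hp.1))).trans (le_abs_self A)
      have h7 : ‖kp s (pol p) • (fderiv ℝ k p).comp (dlp (pol p))‖ ≤ 1 * (η * Real.exp (s + 8)) := by
        rw [norm_smul, Real.norm_eq_abs]
        exact mul_le_mul (abs_kp_le _ _) ((ContinuousLinearMap.opNorm_comp_le _ _).trans
          (mul_le_mul h3 h5 (norm_nonneg _) hη)) (norm_nonneg _) zero_le_one
      have h8 : ‖(fderiv ℝ (kp s) (pol p)).smulRight (k (lp (pol p)))‖ ≤ |A| * η := by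
        rw [ContinuousLinearMap.norm_smulRight_apply, h.per.lp_pol]
        exact mul_le_mul h6 h2 (norm_nonneg _) (abs_nonneg _)
      nlinarith
  exact convex_univ.norm_image_sub_le_of_norm_fderiv_le (𝕜 := ℝ) (fun y _ => (key y).1)
    (fun y _ => (key y).2) (mem_univ z) (mem_univ y)

section
variable [T2Space M] [RSm E2 M] [CompactSpace M]

/-- Lipschitz functions of the plane which are supported in a small disc -/
lemma exists_ext0_lip (𝓔 : Ends σ M) (𝒞 : Cov E2 M) (j : σ) {s : ℝ} (hs : 𝓔.w0 < s) :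
    ∃ K, 0 ≤ K ∧ ∀ (G : E2 → V) (η : ℝ), 0 ≤ η → (∀ y, ‖G y‖ ≤ η) →
      (∀ y z, ‖G y - G z‖ ≤ η * ‖y - z‖) → (∀ y, Real.exp (-(s + 1)) ≤ ‖y‖ → G y = 0) →
      ∀ x y, ‖ext0 (𝓔.φ j) G x - ext0 (𝓔.φ j) G y‖ ≤ K * η * 𝒞.d x y := by
  have hsub := Ends.closedBall_sub j hs
  set T := (𝓔.φ j).symm '' closedBall 0 (Real.exp (-s)) with hT
  have hTs : T ⊆ (𝓔.φ j).source := by
    rintro _ ⟨y, hy, rfl⟩
    exact (𝓔.φ j).map_target (hsub hy)
  obtain ⟨C, hC0, hC⟩ := 𝒞.chart_lip (𝓔.mem j)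
    ((isCompact_closedBall _ _).image_of_continuousOn ((𝓔.φ j).continuousOn_symm.mono hsub)) hTs
  obtain ⟨B, hB0, hB⟩ := 𝒞.ck_lip ((Ends.cut_ck j hs).of_le (l := 1) (by simp))
  refine ⟨C + B, by positivity, fun G η hη h0 h1 h2 => ?_⟩
  have h3 : ∀ x, x ∉ T → ext0 (𝓔.φ j) G x = 0 ∧ 𝓔.cut j s x = 0 := by
    intro x hx
    by_cases hxs : x ∈ (𝓔.φ j).source
    · have h4 : Real.exp (-s) ≤ ‖𝓔.φ j x‖ := by
        by_contra h5
        exact hx ⟨_, mem_closedBall_zero_iff.2 (not_le.1 h5).le, (𝓔.φ j).left_inv hxs⟩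
      exact ⟨by rw [ext0_of_mem hxs, h2 _ ((Real.exp_le_exp.2 (by linarith)).trans h4)],
        by rw [Ends.cut_of_mem hxs, Ends.stp_eq_zero h4]⟩
    · exact ⟨ext0_of_notMem hxs, Ends.cut_of_notMem hxs⟩
  have h4 : ∀ x y, y ∉ T → ‖ext0 (𝓔.φ j) G x - ext0 (𝓔.φ j) G y‖ ≤ (C + B) * η * 𝒞.d x y := by
    intro x y hy
    have hd := 𝒞.d_nonneg x y
    rw [(h3 y hy).1, sub_zero]
    by_cases hx : ext0 (𝓔.φ j) G x = 0
    · rw [hx, norm_zero]; positivity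
    have hxs : x ∈ (𝓔.φ j).source := by
      by_contra h5
      exact hx (ext0_of_notMem h5)
    rw [ext0_of_mem hxs] at hx ⊢
    have h5 := hB x y
    rw [(h3 y hy).2, Ends.cut_of_mem hxs,
      Ends.stp_eq_one (not_lt.1 fun h6 => hx (h2 _ h6.le)), sub_zero, norm_one] at h5
    nlinarith [h0 (𝓔.φ j x), mul_nonneg (mul_nonneg hC0 hη) hd, mul_le_mul_of_nonneg_left h5 hη]
  intro x y
  by_cases hy : y ∈ T
  · by_cases hx : x ∈ T
    · rw [ext0_of_mem (hTs hx), ext0_of_mem (hTs hy)]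
      nlinarith [h1 (𝓔.φ j x) (𝓔.φ j y), mul_le_mul_of_nonneg_left (hC x hx y hy) hη,
        mul_nonneg (mul_nonneg hB0 hη) (𝒞.d_nonneg x y)]
    · rw [norm_sub_rev, 𝒞.d_comm]; exact h4 y x hx
  · exact h4 x y hy

end

/-- functions on the collars as a function on the closed surface -/
def colK (𝓔 : Ends σ M) (s : ℝ) (k : σ → ℝ × ℝ → V) (x : M) (j : σ) : V :=
  ext0 (𝓔.φ j) (fun y => kp s y • k j (lp y)) x

variable {𝓔 : Ends σ M} {s : ℝ}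

lemma colK_Y {k : σ → ℝ × ℝ → V} {j : σ} (hk : Per (k j)) {p : ℝ × ℝ} (hp : 𝓔.w0 < p.1) :
    colK 𝓔 s k (𝓔.Y j p) j = kp s (pol p) • k j p := by
  rw [colK, ext0_of_mem (Ends.Y_mem j hp), Ends.φ_Y j hp, hk.lp_pol]

lemma colK_eq (k : σ → ℝ × ℝ → V) (x : M) (j : σ) : colK 𝓔 s k x j =
    (𝓔.cut j (s + 1) x - 𝓔.cut j (s + 7) x) • 𝓔.onEnd j (k j) x := by
  by_cases hx : x ∈ (𝓔.φ j).source
  · rw [colK, ext0_of_mem hx, Ends.cut_of_mem hx, Ends.cut_of_mem hx, Ends.onEnd, ext0_of_mem hx]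
    rfl
  · rw [colK, ext0_of_notMem hx, Ends.onEnd_of_notMem hx, smul_zero]

lemma colK_sub (k k' : σ → ℝ × ℝ → V) (x : M) :
    colK 𝓔 s (k - k') x = colK 𝓔 s k x - colK 𝓔 s k' x := by
  funext j
  by_cases hx : x ∈ (𝓔.φ j).source
  · simp only [colK, ext0_of_mem hx, Pi.sub_apply, smul_sub]
  · simp only [colK, ext0_of_notMem hx, Pi.sub_apply, sub_zero]

/-- the value at a point depends on at most one value on the collar -/
lemma colK_cases (𝓔 : Ends σ M) (s : ℝ) (x : M) (j : σ) :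
    (∀ {V : Type} [NormedAddCommGroup V] [NormedSpace ℝ V] (k : σ → ℝ × ℝ → V),
      colK 𝓔 s k x j = 0) ∨ ∃ (p : ℝ × ℝ) (c : ℝ), p.1 ∈ Icc (s + 1) (s + 8) ∧
      ∀ {V : Type} [NormedAddCommGroup V] [NormedSpace ℝ V] (k : σ → ℝ × ℝ → V),
        colK 𝓔 s k x j = c • k j p := by
  by_cases hx : x ∈ (𝓔.φ j).source
  · rcases kp_cases s (𝓔.φ j x) with h | ⟨p, hp, h⟩
    · exact Or.inl fun k => by rw [colK, ext0_of_mem hx, h.self_of_nhds, zero_smul]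
    · exact Or.inr ⟨lp (𝓔.φ j x), _, by rwa [← h, lp_pol_fst], fun k => ext0_of_mem hx⟩
  · exact Or.inl fun k => ext0_of_notMem hx

lemma colK_congr {k k' : σ → ℝ × ℝ → V}
    (h : ∀ j (p : ℝ × ℝ), p.1 ∈ Icc (s + 1) (s + 8) → k j p = k' j p) :
    colK 𝓔 s k = colK 𝓔 s k' := by
  funext x j
  rcases colK_cases 𝓔 s x j with h1 | ⟨p, c, hp, h1⟩
  · rw [h1, h1]
  · rw [h1, h1, h j p hp]

section
variable [T2Space M] [RSm E2 M] [CompactSpace M] [Fintype σ]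

theorem exists_colK (𝓔 : Ends σ M) (𝒞 : Cov E2 M) {s : ℝ} (hs : 𝓔.w0 < s) :
    ∃ K, 0 ≤ K ∧ ∀ (k : σ → ℝ × ℝ → V) (η : ℝ), 0 ≤ η → (∀ j, ColB s η (k j)) →
      (∀ x, ‖colK 𝓔 s k x‖ ≤ η) ∧ ∀ x y, ‖colK 𝓔 s k x - colK 𝓔 s k y‖ ≤ K * η * 𝒞.d x y := by
  obtain ⟨A, hA1, hA⟩ := exists_plane_lip (V := V) s
  choose C hC0 hC using fun j => exists_ext0_lip (V := V) 𝓔 𝒞 j hs
  obtain ⟨B, hB⟩ := (finite_range C).bddAbove
  refine ⟨|B| * A, by positivity, fun k η hη h => ⟨fun x => ?_, fun x y => ?_⟩⟩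
  · refine (pi_norm_le_iff_of_nonneg hη).2 fun j => ?_
    by_cases hx : x ∈ (𝓔.φ j).source
    · rw [colK, ext0_of_mem hx]; exact (hA _ η hη (h j)).1 _
    · rw [colK, ext0_of_notMem hx, norm_zero]; exact hη
  · have hd := 𝒞.d_nonneg x y
    refine (pi_norm_le_iff_of_nonneg (by positivity)).2 fun j => ?_
    refine (hC j _ (A * η) (by positivity) (fun y => ((hA _ η hη (h j)).1 y).trans
      (le_mul_of_one_le_left hη hA1)) (hA _ η hη (h j)).2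
      (fun y hy => by rw [kp_out hy, zero_smul]) x y).trans ?_
    rw [mul_assoc |B|]
    have := (hB ⟨j, rfl⟩).trans (le_abs_self B)
    gcongr

end

lemma norm_fderiv_le_pd {f : ℝ × ℝ → V} {p : ℝ × ℝ} :
    ‖fderiv ℝ f p‖ ≤ ‖pd f (1, 0) p‖ + ‖pd f (0, 1) p‖ := by
  refine ContinuousLinearMap.opNorm_le_bound _ (by positivity) fun v => ?_
  have e : v = v.1 • ((1, 0) : ℝ × ℝ) + v.2 • ((0, 1) : ℝ × ℝ) := by simp
  conv_lhs => rw [e]
  rw [map_add, map_smul, map_smul, add_mul, mul_comm, mul_comm ‖pd f (0, 1) p‖]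
  refine (norm_add_le _ _).trans ?_
  rw [norm_smul, norm_smul]
  exact add_le_add (mul_le_mul_of_nonneg_right (norm_fst_le v) (norm_nonneg _))
    (mul_le_mul_of_nonneg_right (norm_snd_le v) (norm_nonneg _))

/-- the first order jet is `C¹` with bounds from the two-jet -/
lemma jet1_bd {μ : ℝ × ℝ → V} {p : ℝ × ℝ} (h : ContDiffAt ℝ 2 μ p) :
    DifferentiableAt ℝ (fun q => (pj μ q).1) p ∧ ‖fderiv ℝ (fun q => (pj μ q).1) p‖ ≤ 2 * ‖pj μ p‖ := by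
  have h0 := h.differentiableAt (by simp)
  have h1 := differentiableAt_pd h
  refine ⟨h0.prodMk ((h1 _).prodMk (h1 _)), norm_fderiv_le_pd.trans ?_⟩
  have e : ∀ v, pd (fun q => (pj μ q).1) v p =
      (pd μ v p, pd (pd μ (1, 0)) v p, pd (pd μ (0, 1)) v p) := fun v => by
    rw [← pd_prod (h1 _) (h1 _), ← pd_prod h0 ((h1 _).prodMk (h1 _))]
    rfl
  rw [e, e, pd_comm h (0, 1) (1, 0), two_mul]
  have a1 := norm_fst_le (pj μ p)
  have a2 := norm_snd_le (pj μ p)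
  have b1 := (norm_snd_le (pj μ p).1).trans a1
  have b2 := (norm_snd_le (pj μ p).2).trans a2
  exact add_le_add (max_le ((norm_fst_le (pj μ p).1.2).trans b1)
    (max_le ((norm_fst_le (pj μ p).2).trans a2) ((norm_fst_le (pj μ p).2.2).trans b2)))
    (max_le ((norm_snd_le (pj μ p).1.2).trans b1) b2)

lemma icc_sub {s w : ℝ} (h : w ∈ Icc (s + 1) (s + 8)) : w ∈ Ioo s (s + 9) :=
  ⟨by linarith [h.1], by linarith [h.2]⟩

lemma colB_sub {μ μ' : ℝ × ℝ → ℂ} (h : Col s μ) (h' : Col s μ') {η : ℝ}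
    (hη : ∀ p : ℝ × ℝ, p.1 ∈ Icc (s + 1) (s + 8) → ‖pj μ p - pj μ' p‖ ≤ η) :
    ColB s (2 * η) fun p => (pj μ p).1 - (pj μ' p).1 := by
  refine ⟨fun w θ => by simp only [pj_per h.per w θ, pj_per h'.per w θ], fun p hp => ?_⟩
  have e : ∀ q : ℝ × ℝ, q.1 ∈ Ioo s (s + 9) → pj (fun q => μ q - μ' q) q = pj μ q - pj μ' q := by
    intro q hq
    have h1 := cj_add (d1 := ((1, 0) : ℝ × ℝ)) (d2 := (0, 1)) ((h.cd q hq).sub (h'.cd q hq))
      (h'.cd q hq)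
    simp only [sub_add_cancel] at h1
    exact eq_sub_of_add_eq h1.symm
  have h2 := jet1_bd ((h.cd p (icc_sub hp)).sub (h'.cd p (icc_sub hp)))
  have h3 : (fun p => (pj μ p).1 - (pj μ' p).1) =ᶠ[𝓝 p] fun q => (pj (fun q => μ q - μ' q) q).1 := by
    filter_upwards [continuous_fst.continuousAt.eventually (isOpen_Ioo.mem_nhds (icc_sub hp))]
      with q hq
    rw [e q hq]; rfl
  have h4 := hη p hp
  refine ⟨h2.1.congr_of_eventuallyEq h3, ?_, ?_⟩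
  · exact (norm_fst_le (pj μ p - pj μ' p)).trans (by linarith [norm_nonneg (pj μ p - pj μ' p)])
  · rw [h3.fderiv_eq]
    rw [e p (icc_sub hp)] at h2
    linarith [h2.2]

lemma col_zero (s : ℝ) : Col s fun _ => 0 := ⟨fun _ _ => rfl, fun _ _ => contDiffAt_const⟩

lemma Col.exists_bd {μ : ℝ × ℝ → ℂ} (h : Col s μ) :
    ∃ η, 0 ≤ η ∧ ∀ p : ℝ × ℝ, p.1 ∈ Icc (s + 1) (s + 8) → ‖pj μ p‖ ≤ η := by
  obtain ⟨A, hA⟩ := ((isCompact_Icc (a := s + 1) (b := s + 8)).prod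
    (isCompact_Icc (a := 0) (b := 2 * Real.pi))).exists_bound_of_continuousOn (f := pj μ)
    fun p hp => (contDiffAt_cj (n := 0) (by simpa using h.cd p (icc_sub hp.1))).continuousAt.continuousWithinAt
  refine ⟨|A|, abs_nonneg A, fun p hp => ?_⟩
  obtain ⟨θ, hθ, h1⟩ := exists_strip p
  rw [h1 (pj_per h.per)]
  exact (hA (p.1, θ) ⟨hp, hθ⟩).trans (le_abs_self A)

/-- the first order jets on the collars -/
def colF (𝓔 : Ends σ M) (s : ℝ) (μ : σ → ℝ × ℝ → ℂ) : M → σ → T3 ℂ :=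
  colK 𝓔 s fun j p => (pj (μ j) p).1

lemma colF_Y {μ : σ → ℝ × ℝ → ℂ} {j : σ} (hμ : Per (μ j)) (hs : 𝓔.w0 < s) {p : ℝ × ℝ}
    (hp : p.1 ∈ Icc (s + 2) (s + 7)) : colF 𝓔 s μ (𝓔.Y j p) j = (pj (μ j) p).1 := by
  rw [colF, colK_Y (fun w θ => by simp only [pj_per hμ w θ]) (by linarith [hp.1]), kp_one hp,
    one_smul]

lemma colF_zero {μ : σ → ℝ × ℝ → ℂ} (h : ∀ j (p : ℝ × ℝ), p.1 ∈ Ioo s (s + 9) → μ j p = 0) :
    colF 𝓔 s μ = 0 := by
  funext x j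
  rcases colK_cases 𝓔 s x j with h1 | ⟨p, c, hp, h1⟩
  · exact h1 _
  · have h2 : pj (μ j) p = 0 := (cj_congr ((continuous_fst.continuousAt.eventually
      (isOpen_Ioo.mem_nhds (icc_sub hp))).mono fun q hq => h j q hq)).trans cj_zero
    rw [colF, h1, h2]
    simp

lemma star_pj {μ : ℝ × ℝ → ℂ} {p : ℝ × ℝ} (h : ContDiffAt ℝ 2 μ p)
    (hr : ∀ᶠ q in 𝓝 p, (μ q).im = 0) : star (pj μ p) = pj μ p := by
  have h1 : μ =ᶠ[𝓝 p] fun q => ((μ q).re : ℂ) := hr.mono fun q hq =>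
    Complex.ext (by simp) (by simpa using hq)
  rw [pj, cj_congr h1, cj_ofReal (f := fun q => (μ q).re) (Complex.reCLM.contDiff.contDiffAt.comp p h),
    star_jmap]

lemma star_colF {μ : σ → ℝ × ℝ → ℂ} (h : ∀ j, Col s (μ j))
    (hr : ∀ j (p : ℝ × ℝ), p.1 ∈ Ioo s (s + 9) → (μ j p).im = 0) (x : M) :
    star (colF 𝓔 s μ x) = colF 𝓔 s μ x := by
  funext j
  rw [Pi.star_apply]
  rcases colK_cases 𝓔 s x j with h1 | ⟨p, c, hp, h1⟩
  · rw [colF, h1, star_zero]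
  · have h2 := star_pj ((h j).cd p (icc_sub hp)) ((continuous_fst.continuousAt.eventually
      (isOpen_Ioo.mem_nhds (icc_sub hp))).mono fun q hq => hr j q hq)
    rw [colF, h1, star_smul, star_trivial, show star (pj (μ j) p).1 = (star (pj (μ j) p)).1 from rfl,
      h2]

variable [T2Space M] [RSm E2 M] [CompactSpace M] [Fintype σ]

/-- the first order jets on the collars as a Hoelder function -/
def colH (𝒞 : Cov E2 M) (𝓔 : Ends σ M) (s : ℝ) (μ : σ → ℝ × ℝ → ℂ) : Hw 𝒞 (σ → T3 ℂ) :=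
  toHol (𝒞.w (1 / 2)) (colF 𝓔 s μ)

theorem exists_colF (𝓔 : Ends σ M) (𝒞 : Cov E2 M) {s : ℝ} (hs : 𝓔.w0 < s) :
    ∃ K, 0 ≤ K ∧ ∀ (μ μ' : σ → ℝ × ℝ → ℂ) (η : ℝ), 0 ≤ η → (∀ j, Col s (μ j)) →
      (∀ j, Col s (μ' j)) →
      (∀ j (p : ℝ × ℝ), p.1 ∈ Icc (s + 1) (s + 8) → ‖pj (μ j) p - pj (μ' j) p‖ ≤ η) →
      (∀ x, ‖colF 𝓔 s μ x - colF 𝓔 s μ' x‖ ≤ K * η) ∧
      (∀ x y, ‖(colF 𝓔 s μ x - colF 𝓔 s μ' x) - (colF 𝓔 s μ y - colF 𝓔 s μ' y)‖ ≤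
        K * η * 𝒞.d x y) ∧
      ∀ x y, ‖(colF 𝓔 s μ x - colF 𝓔 s μ' x) - (colF 𝓔 s μ y - colF 𝓔 s μ' y)‖ ≤
        K * η * 𝒞.w (1 / 2) x y := by
  obtain ⟨K, hK0, hK⟩ := exists_colK (V := T3 ℂ) 𝓔 𝒞 hs
  have hD : 0 ≤ 𝒞.D ^ (1 - 1 / 2 : ℝ) := Real.rpow_nonneg 𝒞.D_nonneg _
  refine ⟨2 + 2 * K + 2 * K * 𝒞.D ^ (1 - 1 / 2 : ℝ), by positivity, fun μ μ' η hη h h' hb => ?_⟩
  obtain ⟨h1, h2⟩ := hK ((fun j p => (pj (μ j) p).1) - fun j p => (pj (μ' j) p).1) (2 * η)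
    (by positivity) fun j => colB_sub (h j) (h' j) (hb j)
  simp only [colK_sub] at h1 h2
  have a1 := mul_nonneg hK0 hη
  have a2 := mul_nonneg a1 hD
  refine ⟨fun x => (h1 x).trans (by nlinarith), fun x y => (h2 x y).trans ?_,
    fun x y => (h2 x y).trans ?_⟩
  · exact mul_le_mul_of_nonneg_right (by nlinarith) (𝒞.d_nonneg x y)
  · refine (mul_le_mul_of_nonneg_left (𝒞.lip_le_w (α := 1 / 2) (by norm_num) (by norm_num) x y)
      (by positivity)).trans ?_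
    rw [← mul_assoc]
    exact mul_le_mul_of_nonneg_right (by nlinarith) (NNReal.coe_nonneg _)

lemma colH_apply (hs : 𝓔.w0 < s) {μ : σ → ℝ × ℝ → ℂ} (h : ∀ j, Col s (μ j)) (x : M) :
    colH 𝒞 𝓔 s μ x = colF 𝓔 s μ x := by
  obtain ⟨K, hK0, hK⟩ := exists_colF 𝓔 𝒞 hs
  choose η hη0 hη using fun j => Col.exists_bd (h j)
  obtain ⟨A, hA⟩ := (finite_range η).bddAbove
  obtain ⟨h1, -, h2⟩ := hK μ (fun _ _ => 0) |A| (abs_nonneg A) h (fun _ => col_zero s)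
    fun j p hp => by
      rw [show pj (fun _ : ℝ × ℝ => (0 : ℂ)) p = 0 from cj_zero, sub_zero]
      exact (hη j p hp).trans ((hA ⟨j, rfl⟩).trans (le_abs_self A))
  simp only [colF_zero (μ := fun _ _ => 0) fun _ _ _ => rfl, Pi.zero_apply, sub_zero] at h1 h2
  exact toHol_apply h1 h2 x

lemma colH_zero {μ : σ → ℝ × ℝ → ℂ} (h : ∀ j (p : ℝ × ℝ), p.1 ∈ Ioo s (s + 9) → μ j p = 0) :
    colH 𝒞 𝓔 s μ = 0 := by
  rw [colH, colF_zero h]
  exact toHol_coe (0 : Hw 𝒞 (σ → T3 ℂ))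

/-- **The collar map is Lipschitz.** -/
theorem exists_colH (𝓔 : Ends σ M) (𝒞 : Cov E2 M) {s : ℝ} (hs : 𝓔.w0 < s) :
    ∃ K, 0 ≤ K ∧ ∀ (μ μ' : σ → ℝ × ℝ → ℂ) (η : ℝ), 0 ≤ η → (∀ j, Col s (μ j)) →
      (∀ j, Col s (μ' j)) →
      (∀ j (p : ℝ × ℝ), p.1 ∈ Ioo s (s + 9) → ‖pj (μ j) p - pj (μ' j) p‖ ≤ η) →
      ‖colH 𝒞 𝓔 s μ - colH 𝒞 𝓔 s μ'‖ ≤ K * η := by
  obtain ⟨K, hK0, hK⟩ := exists_colF 𝓔 𝒞 hs
  refine ⟨2 * K, by positivity, fun μ μ' η hη h h' hb => ?_⟩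
  obtain ⟨h1, -, h2⟩ := hK μ μ' η hη h h' fun j p hp => hb j p (icc_sub hp)
  rw [two_mul, add_mul]
  refine Hol.norm_le_of (by positivity) (by positivity) (fun x => ?_) fun x y => ?_
  · rw [Hol.sub_apply, colH_apply hs h, colH_apply hs h']; exact h1 x
  · simp only [Hol.sub_apply, colH_apply hs h, colH_apply hs h']; exact h2 x y

theorem exists_colH_bd (𝓔 : Ends σ M) (𝒞 : Cov E2 M) {s : ℝ} (hs : 𝓔.w0 < s) :
    ∃ K, 0 ≤ K ∧ ∀ (μ : σ → ℝ × ℝ → ℂ) (η : ℝ), 0 ≤ η → (∀ j, Col s (μ j)) →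
      (∀ j (p : ℝ × ℝ), p.1 ∈ Ioo s (s + 9) → ‖pj (μ j) p‖ ≤ η) → ‖colH 𝒞 𝓔 s μ‖ ≤ K * η ∧
        ∀ x y, ‖colH 𝒞 𝓔 s μ x - colH 𝒞 𝓔 s μ y‖ ≤ K * η * 𝒞.d x y := by
  obtain ⟨K, hK0, hK⟩ := exists_colF 𝓔 𝒞 hs
  refine ⟨2 * K, by positivity, fun μ η hη h hb => ?_⟩
  obtain ⟨h1, h3, h2⟩ := hK μ (fun _ _ => 0) η hη h (fun _ => col_zero s) fun j p hp => by
    rw [show pj (fun _ : ℝ × ℝ => (0 : ℂ)) p = 0 from cj_zero, sub_zero]
    exact hb j p (icc_sub hp)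
  simp only [colF_zero (μ := fun _ _ => 0) fun _ _ _ => rfl, Pi.zero_apply, sub_zero] at h1 h2 h3
  refine ⟨?_, fun x y => ?_⟩
  · rw [two_mul, add_mul]
    exact norm_toHol_le (by positivity) (by positivity) h1 h2
  · rw [colH_apply hs h, colH_apply hs h]
    exact (h3 x y).trans (mul_le_mul_of_nonneg_right (by nlinarith [mul_nonneg hK0 hη])
      (𝒞.d_nonneg x y))

variable {P : Type*} [NormedAddCommGroup P] [NormedSpace ℂ P]

/-- **The collar map is holomorphic.** -/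
theorem differentiableOn_colH (hs : 𝓔.w0 < s) {μ : P → σ → ℝ × ℝ → ℂ} {U : Set P} (hU : IsOpen U)
    {η : ℝ} (h : ∀ a ∈ U, ∀ j, Col s (μ a j))
    (hb : ∀ a ∈ U, ∀ j (p : ℝ × ℝ), p.1 ∈ Ioo s (s + 9) → ‖pj (μ a j) p‖ ≤ η)
    (hd : ∀ j (p : ℝ × ℝ), p.1 ∈ Ioo s (s + 9) → DifferentiableOn ℂ (fun a => (pj (μ a j) p).1) U) :
    DifferentiableOn ℂ (fun a => colH 𝒞 𝓔 s (μ a)) U := by
  obtain ⟨K, hK0, hK⟩ := exists_colH_bd 𝓔 𝒞 hs
  refine differentiableOn_hol hU (M := K * |η|) (fun a ha => (hK _ _ (abs_nonneg η) (h a ha)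
    fun j p hp => (hb a ha j p hp).trans (le_abs_self η)).1) fun x => ?_
  refine DifferentiableOn.congr (f := fun a => colF 𝓔 s (μ a) x) ?_
    fun a ha => colH_apply hs (h a ha) x
  refine differentiableOn_pi.2 fun j => ?_
  rcases colK_cases 𝓔 s x j with h1 | ⟨p, c, hp, h1⟩
  · simp only [colF, h1]
    exact differentiableOn_const _
  · simp only [colF, h1]
    exact (hd j p (icc_sub hp)).const_smul c

/-- **The derivative of the collar map is compact.** -/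
theorem isCompactOperator_colH (hs : 𝓔.w0 < s) {μ : P → σ → ℝ × ℝ → ℂ} {δ η : ℝ} (hδ : 0 < δ)
    (h : ∀ a ∈ ball (0 : P) δ, ∀ j, Col s (μ a j))
    (hb : ∀ a ∈ ball (0 : P) δ, ∀ j (p : ℝ × ℝ), p.1 ∈ Ioo s (s + 9) → ‖pj (μ a j) p‖ ≤ η)
    (hd : ∀ j (p : ℝ × ℝ), p.1 ∈ Ioo s (s + 9) →
      DifferentiableOn ℂ (fun a => (pj (μ a j) p).1) (ball 0 δ)) :
    IsCompactOperator (fderiv ℂ (fun a => colH 𝒞 𝓔 s (μ a)) 0) := by
  obtain ⟨K, hK0, hK⟩ := exists_colH_bd 𝓔 𝒞 hs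
  have h1 := differentiableOn_colH (𝒞 := 𝒞) hs isOpen_ball h hb hd
  have h2 := h1.differentiableAt (ball_mem_nhds 0 hδ)
  refine isCompactOperator_of_lip 𝒞 (by norm_num) (by norm_num) _ (C := K * |η| / δ)
    (by positivity) fun a x y => ?_
  set L : Hw 𝒞 (σ → T3 ℂ) →L[ℂ] (σ → T3 ℂ) := evalK ℂ x - evalK ℂ y with hL
  have h3 := P281.MF.norm_fderiv_le_of_ball hδ (L.differentiable.comp_differentiableOn h1)
    (C := K * |η| * 𝒞.d x y) fun a ha => (hK _ _ (abs_nonneg η) (h a ha)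
      fun j p hp => (hb a ha j p hp).trans (le_abs_self η)).2 x y
  rw [(L.hasFDerivAt.comp 0 h2.hasFDerivAt).fderiv] at h3
  refine (((L.comp _).le_opNorm a).trans (mul_le_mul_of_nonneg_right h3 (norm_nonneg a))).trans
    (le_of_eq (by ring))

end Vale.Agent.P218CQ
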