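import Vale.Agent.P218CQ.Soft
import Vale.Agent.P218CO.PsiH
import Vale.Agent.P218CE.Ell
import Vale.Agent.P218CP.Pos
import Vale.Agent.P218CL.Main

/-! # The main theorem of the core theory (helper40) -/

open Set Filter Metric Topology MeasureTheory
open scoped ContDiff

noncomputable section

set_option linter.unusedSectionVars false
set_option linter.unusedVariables false
set_option maxSynthPendingDepth 3

namespace Vale.Agent.P218CQ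

open Vale.Agent.P218VA Vale.Agent.P218MP Vale.Agent.P272.K.LIN Vale.Agent.P218CO
open Vale.Agent.P218GC (psi_real momL)

variable {σ β Λ ν τ M : Type} [TopologicalSpace M] [ChartedSpace E2 M] {𝒞 : Cov E2 M} [T2Space M]
  [RSm E2 M] [CompactSpace M] [Fintype σ] [Fintype β] [Fintype Λ] [Fintype ν] [Fintype τ]
  {c : CoreOp σ β M} {s δ r R A : ℝ}

/-- restriction of a complex functional to real jets -/
def resR : (FV 𝒞 σ β →L[ℂ] ℂ) →L[ℝ] JV 𝒞 →L[ℝ] ℝ :=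
  ((ContinuousLinearMap.compL ℝ (JV 𝒞) ℂ ℝ Complex.reCLM).comp
    ((ContinuousLinearMap.compL ℝ (JV 𝒞) (FV 𝒞 σ β) ℂ).flip
      ((ContinuousLinearMap.inl ℝ _ _).comp Cx.ofR))).comp
    (ContinuousLinearMap.restrictScalarsL ℂ (FV 𝒞 σ β) ℂ ℝ ℝ)

lemma resR_apply (a : FV 𝒞 σ β →L[ℂ] ℂ) (J : JV 𝒞) : resR a J = (a (Cx.ofR J, 0)).re := rfl

theorem fred_main (hc : c.Good s) (hN : NemOK (𝒞.w (1 / 2)) (c.Psi 𝒞 s) R A) :
    Fred ((appK hN.coef).comp (fib.comp (ContinuousLinearMap.inl ℂ (VC 𝒞) _))) := by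
  have e : ∀ (v : VC 𝒞) x, ((appK hN.coef).comp (fib.comp (ContinuousLinearMap.inl ℂ (VC 𝒞) _))) v x
      = fderiv ℂ (c.Psi 𝒞 s x) 0 (JH v x, 0, 0) := fun v x => by
    show hN.coef x (fib (v, 0) x) = _
    rw [fib_apply]
    rfl
  refine P218CE.fred_of_local 𝒞 _ (Hol.map (W := JV 𝒞 →L[ℝ] ℝ) resR hN.coef) (fun v x => ?_)
    fun i x hx _ v ξ hξ hj => ?_
  · have h1 := P218CJ.im_fderiv_eq_zero hN.pos (hN.diff x) (h := (Cx.ofR (JR v x), 0))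
      fun t _ => by
        have h2 : (t : ℂ) • ((Cx.ofR (JR v x), 0) : FV 𝒞 σ β) = (Cx.ofR (t • JR v x), 0) := by
          rw [map_smul, Prod.smul_mk, smul_zero]; rfl
        rw [h2]
        exact psi_real hc x _ _ (star_zero _)
    rw [e, JH_ofR, ← JR_eq]
    exact Complex.ext rfl h1
  · obtain ⟨d, hd, hd'⟩ := P218CP.psi_pos hc i x hx v ξ hξ hj
    have h1 := ((hN.diff x).differentiableAt (ball_mem_nhds _ hN.pos)).hasFDerivAt.hasLineDerivAt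
      ((JH (Cx.ofR v) x, 0, 0) : FV 𝒞 σ β)
    simp only [HasLineDerivAt, zero_add] at h1
    rwa [e, h1.unique hd]

variable [MeasurableSpace M] [BorelSpace M] {μ0 : Measure M}
  {e : Λ → M → ℝ} {e' : τ → M → ℝ} {bd : σ → ℝ → (ν → ℂ) →L[ℂ] ℂ} {O : VC 𝒞 → σ → ℝ × ℝ → ℂ}
  {m : VC 𝒞 → ν → ℂ} {eL : (Λ → ℂ) →L[ℂ] Hw 𝒞 ℂ} {L : VC 𝒞 →L[ℂ] τ → ℂ}

lemma fderiv_FF (hc : c.Good s) (h : c.BaseFam s δ r bd O m)
    (hN : NemOK (𝒞.w (1 / 2)) (c.Psi 𝒞 s) R A) (x : XX 𝒞 β Λ) :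
    fderiv ℂ (FF c s eL L O m 0) 0 x = (appK hN.coef (fib (x.1,
      fderiv ℂ (fun v => colH 𝒞 c.𝓔 s (O v)) 0 x.1, x.2.1)) - eL x.2.2, fderiv ℂ m 0 x.1, L x.1) := by
  have h0 : HasFDerivAt (fun x : XX 𝒞 β Λ => x.1) (ContinuousLinearMap.fst ℂ _ _) 0 :=
    hasFDerivAt_fst
  have h0' : HasFDerivAt (fun x : XX 𝒞 β Λ => x.2) (ContinuousLinearMap.snd ℂ _ _) 0 :=
    hasFDerivAt_snd
  have h1 : HasFDerivAt (fun x : XX 𝒞 β Λ => colH 𝒞 c.𝓔 s (O x.1)) _ 0 :=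
    HasFDerivAt.comp (g := fun v => colH 𝒞 c.𝓔 s (O v)) 0 ((base_differentiableOn hc.lev
      h).differentiableAt (ball_mem_nhds _ h.pos)).hasFDerivAt h0
  have h2 : HasFDerivAt (fun x : XX 𝒞 β Λ => m x.1) _ 0 :=
    HasFDerivAt.comp (g := m) 0 (h.holm.differentiableAt (ball_mem_nhds _ h.pos)).hasFDerivAt h0
  have h3 : HasFDerivAt (fun x : XX 𝒞 β Λ => fib (x.1, colH 𝒞 c.𝓔 s (O x.1), x.2.1)) _ 0 :=
    fib.hasFDerivAt.comp 0 (h0.prodMk (h1.prodMk h0'.fst))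
  have h4 : HasFDerivAt (Nem (𝒞.w (1 / 2)) (c.Psi 𝒞 s)) (appK hN.coef)
      (fib ((0 : XX 𝒞 β Λ).1, colH 𝒞 c.𝓔 s (O (0 : XX 𝒞 β Λ).1), (0 : XX 𝒞 β Λ).2.1)) := by
    have h5 : ((0 : XX 𝒞 β Λ).1, colH 𝒞 c.𝓔 s (O (0 : XX 𝒞 β Λ).1), (0 : XX 𝒞 β Λ).2.1) = 0 := by
      rw [Prod.fst_zero, base_colH_zero h]; rfl
    rw [h5, map_zero, ← hN.fderiv_zero]
    exact (hN.differentiableOn.differentiableAt (ball_mem_nhds _ (half_pos hN.pos))).hasFDerivAt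
  have h6 := ((HasFDerivAt.comp (g := Nem (𝒞.w (1 / 2)) (c.Psi 𝒞 s)) 0 h4 h3).sub
    (eL.hasFDerivAt.comp 0 h0'.snd)).prodMk (h2.prodMk ((L.hasFDerivAt.comp 0 h0).sub_const 0))
  exact congrArg (fun T => T x) h6.fderiv

theorem fred_FF (hc : c.Good s) (h : c.BaseFam s δ r bd O m)
    (hN : NemOK (𝒞.w (1 / 2)) (c.Psi 𝒞 s) R A)
    (card : Fintype.card β + Fintype.card Λ = Fintype.card ν + Fintype.card τ) :
    Fred (fderiv ℂ (FF c s eL L O m 0) (0 : XX 𝒞 β Λ)) := by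
  refine Fred.block (by simp [card]) ((fred_main hc hN).of_sub (cpt_congr
    ((base_compact (𝓔 := c.𝓔) hc.lev h).clm_comp ((appK hN.coef).comp (fib.comp
      ((ContinuousLinearMap.inr ℂ (VC 𝒞) _).comp (ContinuousLinearMap.inl ℂ _ _))))) fun v => ?_))
  show (fderiv ℂ (FF c s eL L O m 0) (0 : XX 𝒞 β Λ) (v, 0)).1 - appK hN.coef (fib (v, 0)) =
    appK hN.coef (fib (0, fderiv ℂ (fun v => colH 𝒞 c.𝓔 s (O v)) 0 v, 0))
  rw [fderiv_FF hc h hN]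
  simp only [Prod.snd_zero, Prod.fst_zero, map_zero, sub_zero]
  rw [← map_sub, ← map_sub]
  simp

lemma ray_FF (hc : c.Good s) (h : c.BaseFam s δ r bd O m)
    (hN : NemOK (𝒞.w (1 / 2)) (c.Psi 𝒞 s) R A) (heL : ∀ l x, eL l x = ∑ k, l k * e k x)
    (hL : ∀ v, L v = mom μ0 e' (fnC v)) (x : XX 𝒞 β Λ) (y : M) :
    HasDerivAt (fun t : ℂ => c.sysFun s e (fnC (t • x).1) (t • x).2.1 (t • x).2.2 (O (t • x).1) y)
      ((fderiv ℂ (FF c s eL L O m 0) 0 x).1 y) 0 := by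
  obtain ⟨-, R₁, hR₁, h1, h2, -⟩ := exists_base hc h hN heL hL
  have h3 := ((yL (.inl y)).hasFDerivAt.comp 0
    (h1.differentiableAt (ball_mem_nhds _ hR₁)).hasFDerivAt).hasLineDerivAt x
  simp only [HasLineDerivAt, zero_add] at h3
  refine HasDerivAt.congr_of_eventuallyEq h3 ?_
  have h4 : ContinuousAt (fun t : ℂ => t • x) 0 := by fun_prop
  filter_upwards [h4.eventually (show ∀ᶠ q in 𝓝 ((0 : ℂ) • x), q ∈ ball (0 : XX 𝒞 β Λ) R₁ by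
    rw [zero_smul]; exact ball_mem_nhds _ hR₁)] with t ht
  exact (h2 _ ht y).symm

/-- **The main theorem of the core theory.** -/
theorem coreStatement (c : CoreOp σ β M) (s : ℝ) (μ0 : Measure M) (e : Λ → M → ℝ)
    (e' : τ → M → ℝ) (δ r : ℝ) (bd : σ → ℝ → (ν → ℂ) →L[ℂ] ℂ) (O : VC 𝒞 → σ → ℝ × ℝ → ℂ)
    (m : VC 𝒞 → ν → ℂ) : CoreStatement c s μ0 e e' δ r bd O m := by
  intro h hi ρ₀ hρ₀
  have hc := h.good
  have := h.fin
  obtain ⟨R, A, hN⟩ := hc.exists_nem 𝒞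
  obtain ⟨eL, heL⟩ := exists_eL 𝒞 fun k => (h.src k).1
  obtain ⟨L, hL⟩ := momL (𝒞 := 𝒞) (μ0 := μ0) fun i => ckFn_continuous (h.src' i).1
  obtain ⟨T, hT⟩ := (fred_FF (eL := eL) (L := L) hc h.fam hN h.card).exists_equiv fun x hx => by
    have h1 := fderiv_FF (eL := eL) (L := L) hc h.fam hN x
    rw [hx] at h1
    refine P218CL.ker_zero h hi x (fun y => ?_) (congrArg (·.2.1) h1).symm
      ((hL _).symm.trans (congrArg (·.2.2) h1).symm)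
    have h2 := ray_FF hc h.fam hN heL hL x y
    rwa [hx] at h2
  obtain ⟨ρ₁, hρ₁, hg⟩ := geo_of_sys hc h.src 𝒞
  obtain ⟨ρ, ε, C, sol, h1, h2, h3, h4, h5, h6, spec, cmp, real, hol⟩ :=
    exists_soft hc h.fam hN heL hL T hT.symm (lt_min hρ₀ hρ₁)
  refine ⟨⟨ρ, ε, C, sol, h1, h3, h4, h5, h6, spec, cmp, real, hol,
    fun x hx => hg x (ball_subset_ball (h2.trans (min_le_right _ _)) hx),
    P218CL.lin_of h hi h1 spec cmp fun Ω O' m' z => hol Ω O' m' z, fun f hf => ?_⟩,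
    h2.trans (min_le_left _ _)⟩
  obtain ⟨x, hx⟩ := T.surjective (Hol.map Complex.ofRealCLM
    (𝒞.ofCk (α := 1 / 2) (by norm_num) (by norm_num) f hf.1), 0)
  refine P218CL.linSol_of_sys h x f hf fun y => ?_
  have h7 := ray_FF hc h.fam hN heL hL x y
  rw [← hT, ContinuousLinearEquiv.coe_coe, hx] at h7
  exact h7

end Vale.Agent.P218CQ
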