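import Vale.Agent.P218CO.Sys
import Vale.Agent.P218MP.Collar

/-! # Solutions of the system solve the geometric equation (helper40) -/

open Set Filter Metric Topology
open scoped ContDiff

noncomputable section

set_option linter.unusedSectionVars false
set_option linter.unusedVariables false
set_option maxSynthPendingDepth 3

namespace Vale.Agent.P218CQ

open Vale.Agent.P218VA Vale.Agent.P218MP Vale.Agent.P272.K.LIN Vale.Agent.P218CO
open Vale.Agent.P218GA (pol dw dth)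

section per
variable {F : Type*} [NormedAddCommGroup F] [NormedSpace ℝ F] {f : ℝ × ℝ → F}

lemma pd_per (h : Per f) (v : ℝ × ℝ) : Per (pd f v) := fun x θ => by
  have e : (fun q : ℝ × ℝ => f (q + (0, 2 * Real.pi))) = f := funext fun q => by
    rw [← h q.1 q.2]; congr 1; ext <;> simp
  have h1 := fderiv_comp_add_right (𝕜 := ℝ) (f := f) (x := (x, θ)) (0, 2 * Real.pi)
  rw [e] at h1
  rw [pd, pd, h1]
  simp

lemma pj_per (h : Per f) : Per (pj f) := fun x θ => by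
  simp only [pj, cj, h x θ, pd_per h _ x θ, pd_per (pd_per h _) _ x θ]

/-- a periodic function is determined by its values on the fundamental strip -/
lemma exists_strip (p : ℝ × ℝ) : ∃ θ ∈ Icc 0 (2 * Real.pi),
    ∀ {G : Type} {g : ℝ × ℝ → G}, Per g → g p = g (p.1, θ) := by
  obtain ⟨θ, hθ, h⟩ := exists_pol_eq 0 (pol_ne_zero p)
  rw [norm_pol, Real.log_exp, neg_neg] at h
  exact ⟨θ, by simpa using Ico_subset_Icc_self hθ, fun hg => hg.eq_of_pol_eq h.symm⟩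

end per

lemma per_E {o : EndOp} {s : ℝ} (ho : o.Good s) {J : ℝ × ℝ → J2 ℂ} (hJ : Per J) :
    Per fun p => o.E p (J p) := fun w θ => by
  simp only [EndOp.E, ho.pa w θ, ho.pb w θ, ho.pH w θ, hJ w θ]

lemma per_COL {o : EndOp} {s : ℝ} (ho : o.Good s) (s' : ℝ) {J : ℝ × ℝ → J2 ℂ} {K : ℝ × ℝ → T3 ℂ}
    (hJ : Per J) (hK : Per K) : Per fun p => o.COL s' p (J p) (K p) := fun w θ => by
  simp only [EndOp.COL, ho.pa w θ, ho.pb w θ, ho.pH w θ, hJ w θ, hK w θ]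

lemma norm_pj_pol {g : E2 → ℝ} {p : ℝ × ℝ} (hg : ContDiffAt ℝ 2 g (pol p)) {r : ℝ}
    (hr : ‖pol p‖ ≤ r) : ‖pj (fun q => g (pol q)) p‖ ≤ (1 + r + r ^ 2) * ‖jet g (pol p)‖ := by
  have hd := hg.differentiableAt (by norm_num)
  set N := ‖jet g (pol p)‖ with hN
  have hN0 : 0 ≤ N := norm_nonneg _
  have hr0 : 0 ≤ r := (norm_nonneg _).trans hr
  have h0 : ‖g (pol p)‖ ≤ N := norm_fst_le (jet g (pol p))
  have h1 : ∀ y : E2, ‖y‖ ≤ r → ‖fderiv ℝ g (pol p) y‖ ≤ r * N := fun y hy => by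
    have : ‖fderiv ℝ g (pol p)‖ ≤ N :=
      (norm_fst_le (jet g (pol p)).2).trans (norm_snd_le (jet g (pol p)))
    refine ((fderiv ℝ g (pol p)).le_opNorm y).trans ?_
    rw [mul_comm]
    exact mul_le_mul hy this (norm_nonneg _) hr0
  have h2 : ∀ y z : E2, ‖y‖ ≤ r → ‖z‖ ≤ r → ‖fderiv ℝ (fderiv ℝ g) (pol p) y z‖ ≤ r ^ 2 * N :=
    fun y z hy hz => by
      have : ‖fderiv ℝ (fderiv ℝ g) (pol p)‖ ≤ N :=
        (norm_snd_le (jet g (pol p)).2).trans (norm_snd_le (jet g (pol p)))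
      refine ((fderiv ℝ (fderiv ℝ g) (pol p)).le_opNorm₂ y z).trans ?_
      calc _ ≤ N * r * r := by gcongr
        _ = _ := by ring
  have hJ : ‖Jr (pol p)‖ ≤ r := by rwa [norm_Jr]
  have e : pj (fun q => g (pol q)) p = ((g (pol p), dw (fun q => g (pol q)) p,
      dth (fun q => g (pol q)) p), (dw (dw fun q => g (pol q)) p, dth (dw fun q => g (pol q)) p,
        dth (dth fun q => g (pol q)) p)) := rfl
  rw [e, dw_comp_pol hd, dth_comp_pol hd, dw_dw_comp_pol hg, dth_dw_comp_pol hg,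
    dth_dth_comp_pol hg]
  have a1 := mul_nonneg hr0 hN0
  have a2 := mul_nonneg (sq_nonneg r) hN0
  simp only [Prod.norm_def, norm_neg, max_le_iff]
  refine ⟨⟨by nlinarith, by nlinarith [h1 _ hr], by nlinarith [h1 _ hJ]⟩, ?_, ?_, ?_⟩
  · refine (norm_add_le _ _).trans ?_
    nlinarith [h1 _ hr, h2 _ _ hr hr]
  · refine (norm_add_le _ _).trans ?_
    nlinarith [h1 _ hJ, h2 _ _ hJ hr]
  · refine (norm_add_le _ _).trans ?_
    rw [norm_neg]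
    nlinarith [h1 _ hr, h2 _ _ hJ hJ]

lemma norm_jmap_ofReal (j : J2 ℝ) : ‖jmap Complex.ofRealCLM j‖ = ‖j‖ := by
  simp [Prod.norm_def]

variable {σ M : Type} [TopologicalSpace M] [ChartedSpace E2 M] {𝒞 : Cov E2 M}

lemma ckAt_fnR (v : VR 𝒞) (x : M) : CkAt 2 (fnR v) x := CkFn.ckAt (𝒞.fn_ck (α := 1 / 2) v) x

lemma ckAt_fnC' (v : VC 𝒞) (x : M) : CkAt 2 (fnC v) x := fun e he hx =>
  ((ckAt_fnR v.re x).ofReal e he hx).add
    (contDiffAt_const.mul ((ckAt_fnR v.im x).ofReal e he hx))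

lemma abs_fnR_le (v : VR 𝒞) (x : M) : |fnR v x| ≤ ‖v‖ :=
  ((𝒞.incl (1 / 2) v).norm_apply_le x).trans (𝒞.norm_incl_le v)

lemma norm_fnC_le (v : VC 𝒞) (x : M) : ‖fnC v x‖ ≤ 2 * ‖v‖ := by
  refine (norm_add_le _ _).trans ?_
  rw [norm_mul, Complex.norm_I, one_mul, Complex.norm_real, Complex.norm_real, Real.norm_eq_abs,
    Real.norm_eq_abs]
  linarith [abs_fnR_le v.re x, abs_fnR_le v.im x, v.norm_re_le, v.norm_im_le]

lemma per_comp_Y {G : Type*} (𝓔 : Ends σ M) (U : M → G) (j : σ) : Per fun q => U (𝓔.Y j q) :=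
  fun w θ => by simp only [Ends.per_Y j w θ]

variable [T2Space M] [RSm E2 M]

/-- the polar two-jet on a collar is bounded by the norm -/
theorem exists_pj_bound [Finite σ] (𝓔 : Ends σ M) (𝒞 : Cov E2 M) {a : ℝ} (ha : 𝓔.w0 < a) (b : ℝ) :
    ∃ K, 0 ≤ K ∧ ∀ (v : VC 𝒞) j (p : ℝ × ℝ), p.1 ∈ Icc a b →
      ‖pj (fun q => fnC v (𝓔.Y j q)) p‖ ≤ K * ‖v‖ := by
  have hK := isCompact_image_pol a b
  choose C hC0 hC using fun j => exists_jet_bound 𝒞 (α := 1 / 2) (by norm_num) (by norm_num)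
    (𝓔.mem j) hK (by rintro _ ⟨p, hp, rfl⟩; exact Ends.pol_mem j (ha.trans_le hp.1.1))
  obtain ⟨A, hA⟩ := (finite_range C).bddAbove
  set r := Real.exp (-a) with hr
  have hr0 : 0 < r := Real.exp_pos _
  refine ⟨2 * ((1 + r + r ^ 2) * |A|), by positivity, fun v j p hp => ?_⟩
  have hw : 𝓔.w0 < p.1 := ha.trans_le hp.1
  have h1 : ∀ u : VR 𝒞, ContDiffAt ℝ 2 (fun q => fnR u (𝓔.Y j q)) p := fun u =>
    Ends.contDiffAt_Y hw (ckAt_fnR u _)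
  have h2 : ∀ u : VR 𝒞, ‖pj (fun q => (fnR u (𝓔.Y j q) : ℂ)) p‖ ≤ (1 + r + r ^ 2) * |A| * ‖u‖ := by
    intro u
    have h3 := cj_clm (d1 := ((1, 0) : ℝ × ℝ)) (d2 := (0, 1)) Complex.ofRealCLM (h1 u)
    have h4 := norm_pj_pol (g := fun z => fnR u ((𝓔.φ j).symm z)) (p := p) (r := r)
      ((ckAt_fnR u _).at_target (𝓔.mem j) (Ends.pol_mem j hw))
      (by rw [norm_pol]; exact Real.exp_le_exp.2 (neg_le_neg hp.1))
    have h5 := (hC j u).1 (pol p) ⟨p, ⟨hp, mem_univ _⟩, rfl⟩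
    have h6 : C j ≤ |A| := (hA ⟨j, rfl⟩).trans (le_abs_self A)
    refine (le_of_eq ((congrArg norm h3).trans (norm_jmap_ofReal _))).trans (h4.trans ?_)
    rw [mul_assoc]
    exact mul_le_mul_of_nonneg_left (h5.trans (mul_le_mul_of_nonneg_right h6 (norm_nonneg _)))
      (by positivity)
  have h7 : ∀ u : VR 𝒞, ContDiffAt ℝ 2 (fun q => (fnR u (𝓔.Y j q) : ℂ)) p := fun u =>
    Complex.ofRealCLM.contDiff.contDiffAt.comp p (h1 u)
  have h8 : pj (fun q => fnC v (𝓔.Y j q)) p = pj (fun q => (fnR v.re (𝓔.Y j q) : ℂ)) p +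
      Complex.I • pj (fun q => (fnR v.im (𝓔.Y j q) : ℂ)) p := by
    rw [← cj_csmul Complex.I (h7 _), ← cj_add (h7 _) ((h7 _).const_smul _)]
    rfl
  rw [h8]
  refine (norm_add_le _ _).trans ?_
  rw [norm_smul, Complex.norm_I, one_mul]
  have h9 : 0 ≤ (1 + r + r ^ 2) * |A| := by positivity
  nlinarith [h2 v.re, h2 v.im, mul_le_mul_of_nonneg_left v.norm_re_le h9,
    mul_le_mul_of_nonneg_left v.norm_im_le h9]

variable {β Λ : Type} [Fintype β] [Fintype σ] [Fintype Λ] {c : CoreOp σ β M} {s : ℝ}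
  {e : Λ → M → ℝ}

omit [T2Space M] [RSm E2 M] in
/-- the system below the level `s + 2` -/
lemma sysFun_below {v : M → ℂ} {B : β → ℂ} {l : Λ → ℂ} {μ : σ → ℝ × ℝ → ℂ} {x : M}
    (hx : x ∈ c.𝓔.below (s + 2)) : c.sysFun s e v B l μ x = c.N v B x - ∑ k, l k * e k x := by
  simp [CoreOp.sysFun, Ends.core_below hx, Ends.cut_below hx,
    Ends.cut_below (Ends.below_mono (by linarith : s + 2 ≤ s + 6) hx)]

omit [T2Space M] [RSm E2 M] in
/-- the system on an end -/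
lemma sysFun_Y (hc : c.Good s) {v : M → ℂ} {B : β → ℂ} {l : Λ → ℂ} {μ : σ → ℝ × ℝ → ℂ} {j : σ}
    (hμ : Per (μ j)) {p : ℝ × ℝ} (hp : c.𝓔.w0 < p.1) : c.sysFun s e v B l μ (c.𝓔.Y j p) =
      ((1 - st (s + 2) p.1 : ℝ) : ℂ) * c.N v B (c.𝓔.Y j p) +
        (((st (s + 2) p.1 - st (s + 6) p.1 : ℝ) : ℂ) *
          (c.op j).COL s p (pj (fun q => v (c.𝓔.Y j q)) p) (pj (μ j) p).1 +
        (st (s + 6) p.1 : ℝ) * c.𝓔.lapE j v (c.𝓔.Y j p)) - ∑ k, l k * e k (c.𝓔.Y j p) := by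
  have h1 := per_COL (hc.ops j) s (pj_per (per_comp_Y c.𝓔 v j))
    (K := fun p => (pj (μ j) p).1) fun w θ => by simp only [pj_per hμ w θ]
  rw [CoreOp.sysFun, Ends.core_Y hp, Ends.sum_of_mem (Ends.Y_mem j hp) fun j' h => by
    simp [Ends.cut_of_notMem h], Ends.cut_Y hp, Ends.cut_Y hp, Ends.onEnd_Y h1 hp]

omit [T2Space M] [RSm E2 M] in
/-- the factor has positive real part for small jets -/
lemma exists_posG (hc : c.Good s) (b : ℝ) : ∃ ε > 0, ∀ j (p : ℝ × ℝ), p.1 ∈ Icc (s + 2) b →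
    p.2 ∈ Icc 0 (2 * Real.pi) → ∀ k : T3 ℂ, ‖k‖ < ε → 0 < (c.G j p k).re := by
  have h1 : ∀ j, ∀ᶠ k : T3 ℂ in 𝓝 0, ∀ p ∈ Icc (s + 2) b ×ˢ Icc 0 (2 * Real.pi),
      0 < (c.G j p k).re := fun j => by
    refine (isCompact_Icc.prod isCompact_Icc).eventually_forall_of_forall_eventually
      (P := fun k p => 0 < (c.G j p k).re) fun p hp => ?_
    have h2 : ContinuousAt (fun z : T3 ℂ × (ℝ × ℝ) => (c.G j z.2 z.1).re) (0, p) :=
      Complex.continuous_re.continuousAt.comp (ContinuousAt.comp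
        (g := fun q : (ℝ × ℝ) × T3 ℂ => c.G j q.1 q.2) (f := Prod.swap) (hc.contG j p hp.1.1)
        continuous_swap.continuousAt)
    exact h2.eventually (eventually_gt_nhds (hc.posG j p hp.1.1))
  obtain ⟨ε, hε, h⟩ := Metric.eventually_nhds_iff.1 (eventually_all.2 h1)
  exact ⟨ε, hε, fun j p h1 h2 k hk => h (by rwa [dist_zero_right]) j p ⟨h1, h2⟩⟩

omit [T2Space M] [RSm E2 M] in
lemma src_Y (hc : c.Good s) (he : ∀ k, c.𝓔.Src (s + 2) (e k)) (l : Λ → ℂ) {j : σ} {p : ℝ × ℝ}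
    (hp : s + 2 ≤ p.1) : ∑ k, l k * (e k (c.𝓔.Y j p) : ℂ) = 0 :=
  Finset.sum_eq_zero fun k _ => by
    rw [(he k).2 _ fun h => absurd ((Ends.Y_below (by linarith [hc.lev])).1 h) (not_lt.2 hp)]
    simp

omit [T2Space M] [RSm E2 M] in
/-- the polar jet of the glued function -/
lemma pj_glue_Y {𝓔 : Ends σ M} {v : M → ℂ} {μ : σ → ℝ × ℝ → ℂ} {j : σ} {p : ℝ × ℝ}
    (hp : 𝓔.w0 < p.1) (hv : CkAt 2 v (𝓔.Y j p)) (hμ : Per (μ j)) (hμ' : ContDiffAt ℝ 2 (μ j) p) :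
    pj (fun q => 𝓔.glue s v μ (𝓔.Y j q)) p =
      glueJ s p.1 (pj (fun q => v (𝓔.Y j q)) p) (pj (μ j) p) := by
  rw [← pj_glue (Ends.contDiffAt_Y hp hv) hμ']
  exact cj_congr ((Ends.ev_w0 hp).mono fun q hq => Ends.glue_Y hμ hq)

omit [T2Space M] in
lemma ckAt_glue_Y {𝓔 : Ends σ M} {v : M → ℂ} {μ : σ → ℝ × ℝ → ℂ} {j : σ} {p : ℝ × ℝ}
    (hp : 𝓔.w0 < p.1) (hv : CkAt 2 v (𝓔.Y j p)) (hμ : Per (μ j)) (hμ' : ContDiffAt ℝ 2 (μ j) p) :
    CkAt 2 (𝓔.glue s v μ) (𝓔.Y j p) := by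
  have h1 : ∀ {χ : ℝ → ℝ}, ContDiff ℝ 2 χ → ContDiffAt ℝ 2 (fun q : ℝ × ℝ => (χ q.1 : ℂ)) p :=
    fun hχ => (Complex.ofRealCLM.contDiff.comp (hχ.comp contDiff_fst)).contDiffAt
  refine Ends.ckAt_Y P218VA.two_le_inf hp (ContDiffAt.congr_of_eventuallyEq
    (((h1 (contDiff_st2' (s + 5))).mul (Ends.contDiffAt_Y hp hv)).add
      ((h1 (contDiff_st2 (s + 3))).mul hμ')) ?_)
  exact (Ends.ev_w0 hp).mono fun q hq => Ends.glue_Y hμ hq

/-- **CO-GEO.** The field `Solver.geo`. -/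
theorem geo_of_sys (hc : c.Good s) (he : ∀ k, c.𝓔.Src (s + 2) (e k)) (𝒞 : Cov E2 M) :
    ∃ ρ₁ > 0, ∀ x ∈ ball (0 : XX 𝒞 β Λ) ρ₁, ∀ (μ : σ → ℝ × ℝ → ℂ) (I : σ → Set ℝ),
    (∀ y, c.sysFun s e (fnC x.1) x.2.1 x.2.2 μ y = 0) →
    (∀ j, Ioo s (s + 9) ⊆ I j ∧ EndSol (c.op j) s (I j) (c.jv x.1 j) (μ j)) →
    (∀ y ∈ c.𝓔.below (s + 3), c.N (fnC x.1) x.2.1 y = ∑ k, x.2.2 k * e k y) ∧
    ∀ j (p : ℝ × ℝ), p.1 ∈ I j → s + 2 ≤ p.1 →
      (c.op j).E p (pj (fun q => c.𝓔.glue s (fnC x.1) μ (c.𝓔.Y j q)) p) = 0 := by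
  have hl := hc.lev
  obtain ⟨K, hK0, hK⟩ := exists_pj_bound c.𝓔 𝒞 (a := s + 2) (by linarith) (s + 3)
  obtain ⟨ε, hε, hG⟩ := exists_posG hc (s + 3)
  refine ⟨min (1 / 2) (ε / (K + 1)), by positivity, fun x hx μ I hs hμ => ?_⟩
  rw [mem_ball_zero_iff, lt_min_iff] at hx
  have hx2 := (lt_div_iff₀ (by positivity)).1 hx.2
  have hx1 : ‖x.1‖ ≤ ‖x‖ := norm_fst_le x
  have hB : ‖x.2.1‖ < 1 := by linarith [(norm_fst_le x.2).trans (norm_snd_le x), hx.1]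
  have hU : ∀ y, ‖fnC x.1 y‖ < 1 := fun y => by linarith [norm_fnC_le x.1 y, hx.1]
  have hE : ∀ j (p : ℝ × ℝ), p.1 ∈ Icc (s + 2) (s + 3) →
      (c.op j).E p (pj (fun q => fnC x.1 (c.𝓔.Y j q)) p) = 0 := by
    intro j p' hp'
    obtain ⟨θ, hθ', h⟩ := exists_strip p'
    rw [h (per_E (hc.ops j) (pj_per (per_comp_Y c.𝓔 (fnC x.1) j)))]
    have hp : (p'.1, θ).1 ∈ Icc (s + 2) (s + 3) := hp'
    have hθ : (p'.1, θ).2 ∈ Icc 0 (2 * Real.pi) := hθ'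
    generalize (p'.1, θ) = p at hp hθ ⊢
    have h1 := hs (c.𝓔.Y j p)
    have h2 : 0 < (c.G j p (pj (fun q => fnC x.1 (c.𝓔.Y j q)) p).1).re := by
      refine hG j p hp hθ _ ((norm_fst_le _).trans_lt ((hK x.1 j p hp).trans_lt ?_))
      nlinarith [norm_nonneg x, mul_le_mul_of_nonneg_left hx1 hK0]
    rw [sysFun_Y hc (hμ j).2.per (by linarith [hp.1]), src_Y hc he _ hp.1,
      hc.ends j p hp.1 _ _ (ckAt_fnC' _ _) (hU _) hB, EndOp.COL_lo _ hp.2,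
      st_zero (a := s + 6) (by linarith [hp.2])] at h1
    have h3 : ((1 - st (s + 2) p.1 : ℝ) : ℂ) *
        c.G j p (pj (fun q => fnC x.1 (c.𝓔.Y j q)) p).1 + (st (s + 2) p.1 : ℝ) ≠ 0 := by
      intro h0
      have h4 := congrArg Complex.re h0
      rw [Complex.add_re, Complex.re_ofReal_mul, Complex.ofReal_re, Complex.zero_re] at h4
      have h5 := st_nonneg (s + 2) p.1
      have h6 := st_le_one (s + 2) p.1
      rcases h5.eq_or_lt with h7 | h7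
      · rw [← h7] at h4; linarith
      · nlinarith
    refine (mul_eq_zero.1 ?_).resolve_left h3
    push_cast at h1 ⊢
    linear_combination h1
  refine ⟨fun y hy => ?_, fun j p hp hp2 => ?_⟩
  · by_cases h : y ∈ c.𝓔.below (s + 2)
    · exact sub_eq_zero.1 ((sysFun_below h).symm.trans (hs y))
    rcases c.𝓔.cases y with h1 | ⟨j, h1⟩ | ⟨j, p, h1, -, rfl⟩
    · exact absurd (Ends.below_of_core h1 _) h
    · exact absurd h1 (Ends.below_reg hy j)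
    rw [Ends.Y_below h1] at h hy
    rw [src_Y hc he _ (not_lt.1 h), hc.ends j p (not_lt.1 h) _ _ (ckAt_fnC' _ _) (hU _) hB,
      hE j p ⟨not_lt.1 h, hy.le⟩, mul_zero]
  · have hw : c.𝓔.w0 < p.1 := by linarith
    have h1 : (c.op j).END s p (pj (fun q => fnC x.1 (c.𝓔.Y j q)) p).1 (pj (μ j) p) = 0 :=
      (hμ j).2.eq p hp
    rw [pj_glue_Y hw (ckAt_fnC' _ _) (hμ j).2.per ((hμ j).2.cd p hp), EndOp.glue_eq, h1, mul_zero,
      add_zero]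
    rcases le_total p.1 (s + 3) with h2 | h2
    · rw [EndOp.COL_lo _ h2, hE j p ⟨hp2, h2⟩, mul_zero]
    rcases le_total p.1 (s + 6) with h3 | h3
    · have h4 := hs (c.𝓔.Y j p)
      rw [sysFun_Y hc (hμ j).2.per hw, src_Y hc he _ hp2, st_one (a := s + 2) (by linarith),
        st_zero h3] at h4
      simp only [sub_self, Complex.ofReal_zero, zero_mul, sub_zero, Complex.ofReal_one, one_mul,
        zero_add, add_zero] at h4
      rw [h4, mul_zero]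
    · rw [c2_hi h3, zero_mul]

omit [T2Space M] [RSm E2 M] in
/-- the operator is local -/
lemma N_congr (hc : c.Good s) {U U' : M → ℂ} {B : β → ℂ} {x : M} (hx : x ∈ c.𝓔.reg)
    (h : U' =ᶠ[𝓝 x] U) (hU : CkAt 2 U x) (h1 : ‖U x‖ < 1) (hB : ‖B‖ < 1) :
    c.N U' B x = c.N U B x := by
  have he := chart_mem_atlas E2 x
  have hs := mem_chart_source E2 x
  rw [hc.chart _ he x hs hx U B hU h1 hB,
    hc.chart _ he x hs hx U' B (hU.congr h) (by rwa [h.self_of_nhds]) hB, cj_congr (cX_congr hs h)]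

omit [RSm E2 M] in
lemma glue_ev {𝓔 : Ends σ M} (hs : 𝓔.w0 < s + 3) {v : M → ℂ} {μ : σ → ℝ × ℝ → ℂ} {x : M}
    (hx : x ∈ 𝓔.below (s + 3)) : 𝓔.glue s v μ =ᶠ[𝓝 x] v :=
  mem_of_superset ((Ends.isOpen_below hs).mem_nhds hx) fun y hy => Ends.glue_below hy

omit [RSm E2 M] in
/-- the glued function solves the equation with the sources below the level `s + 3` -/
lemma N_glue_below (hc : c.Good s) {v : M → ℂ} {B : β → ℂ} {μ : σ → ℝ × ℝ → ℂ} {x : M}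
    (hx : x ∈ c.𝓔.below (s + 3)) (hv : CkAt 2 v x) (h1 : ‖v x‖ < 1) (hB : ‖B‖ < 1) :
    c.N (c.𝓔.glue s v μ) B x = c.N v B x :=
  N_congr hc (Ends.below_reg hx) (glue_ev (by linarith [hc.lev]) hx) hv h1 hB

omit [T2Space M] in
/-- the glued function solves the equation on the ends -/
lemma N_glue_Y (hc : c.Good s) {v : M → ℂ} {B : β → ℂ} {μ : σ → ℝ × ℝ → ℂ} {j : σ} {p : ℝ × ℝ}
    (hp : s + 2 ≤ p.1) (hv : CkAt 2 v (c.𝓔.Y j p)) (hμ : Per (μ j))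
    (hμ' : ContDiffAt ℝ 2 (μ j) p) (h1 : ‖c.𝓔.glue s v μ (c.𝓔.Y j p)‖ < 1) (hB : ‖B‖ < 1)
    (hE : (c.op j).E p (pj (fun q => c.𝓔.glue s v μ (c.𝓔.Y j q)) p) = 0) :
    c.N (c.𝓔.glue s v μ) B (c.𝓔.Y j p) = 0 := by
  rw [hc.ends j p hp _ _ (ckAt_glue_Y (by linarith [hc.lev]) hv hμ hμ') h1 hB, hE, mul_zero]

end Vale.Agent.P218CQ
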