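import Vale.Agent.P218CQ.Col

/-! # The collar map for the families of collar data (helper40) -/

open Set Filter Metric Topology
open scoped ContDiff

noncomputable section

set_option linter.unusedSectionVars false
set_option linter.unusedVariables false

namespace Vale.Agent.P218CQ

open Vale.Agent.P218VA Vale.Agent.P218MP Vale.Agent.P272.K.LIN Vale.Agent.P218CO

variable {σ β ν τ M : Type} [TopologicalSpace M] [ChartedSpace E2 M] {𝒞 : Cov E2 M} [T2Space M]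
  [RSm E2 M] [CompactSpace M] [Fintype σ] [Fintype β] [Fintype ν] [Fintype τ]
  {c : CoreOp σ β M} {𝓔 : Ends σ M} {s δ r ε : ℝ} {bd : σ → ℝ → (ν → ℂ) →L[ℂ] ℂ}
  {O O' : VC 𝒞 → σ → ℝ × ℝ → ℂ} {m m' : VC 𝒞 → ν → ℂ}

lemma colH_congr {μ μ' : σ → ℝ × ℝ → ℂ}
    (h : ∀ j (p : ℝ × ℝ), p.1 ∈ Ioo s (s + 9) → pj (μ j) p = pj (μ' j) p) :
    colH 𝒞 𝓔 s μ = colH 𝒞 𝓔 s μ' := by
  rw [colH, colH, colF, colF, colK_congr fun j p hp => by rw [h j p (icc_sub hp)]]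

lemma colH_Y (hs : 𝓔.w0 < s) {μ : σ → ℝ × ℝ → ℂ} (h : ∀ j, Col s (μ j)) (j : σ) (p : ℝ × ℝ)
    (h1 : s + 2 ≤ p.1) (h2 : p.1 ≤ s + 7) : colH 𝒞 𝓔 s μ (𝓔.Y j p) j = (pj (μ j) p).1 := by
  rw [colH_apply hs h, colF_Y (h j).per hs ⟨h1, h2⟩]

lemma star_colH (hs : 𝓔.w0 < s) {μ : σ → ℝ × ℝ → ℂ} (h : ∀ j, Col s (μ j))
    (hr : ∀ j (p : ℝ × ℝ), p.1 ∈ Ioo s (s + 9) → (μ j p).im = 0) (x : M) :
    star (colH 𝒞 𝓔 s μ x) = colH 𝒞 𝓔 s μ x := by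
  rw [colH_apply hs h, star_colF h hr]

lemma base_col (h : c.BaseFam s δ r bd O m) {v : VC 𝒞} (hv : v ∈ ball (0 : VC 𝒞) δ) (j : σ) :
    Col s (O v j) := ⟨(h.sol v hv j).per, fun p hp => (h.sol v hv j).cd p hp.1⟩

lemma base_hol (h : c.BaseFam s δ r bd O m) (j : σ) (p : ℝ × ℝ) (hp : p.1 ∈ Ioo s (s + 9)) :
    DifferentiableOn ℂ (fun v => (pj (O v j) p).1) (ball 0 δ) := (h.hol2 j p hp.1).fst

lemma base_adm (h : c.BaseFam s δ r bd O m) : Adm s δ 0 O m O m :=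
  ⟨fun v hv => base_col h hv, base_hol h, h.holm, fun v hv j p hp => by simp,
    fun v hv => by simp⟩

lemma Adm.mono (h : Adm s δ ε O m O' m') {ε' : ℝ} (hε : ε ≤ ε') : Adm s δ ε' O m O' m' :=
  ⟨h.col, h.hol, h.holm, fun v hv j p hp => (h.close v hv j p hp).trans hε,
    fun v hv => (h.closem v hv).trans hε⟩

lemma base_colH_zero (h : c.BaseFam s δ r bd O m) : colH 𝒞 𝓔 s (O 0) = 0 :=
  colH_zero fun j p hp => h.zero j p hp.1.le

theorem base_compact (hs : 𝓔.w0 < s) (h : c.BaseFam s δ r bd O m) :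
    IsCompactOperator (fderiv ℂ (fun v => colH 𝒞 𝓔 s (O v)) 0) := by
  obtain ⟨C, hC⟩ := h.bd2 (s + 9)
  exact isCompactOperator_colH hs h.pos (fun v hv => base_col h hv) hC (base_hol h)

theorem adm_differentiableOn (hs : 𝓔.w0 < s) (h : c.BaseFam s δ r bd O m)
    (h' : Adm s δ ε O m O' m') : DifferentiableOn ℂ (fun v => colH 𝒞 𝓔 s (O' v)) (ball 0 δ) := by
  obtain ⟨C, hC⟩ := h.bd2 (s + 9)
  refine differentiableOn_colH hs isOpen_ball (η := ε + C) h'.col (fun v hv j p hp => ?_) h'.hol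
  linarith [norm_le_norm_add_norm_sub' (pj (O' v j) p) (pj (O v j) p), hC v hv j p hp,
    h'.close v hv j p hp]

theorem base_differentiableOn (hs : 𝓔.w0 < s) (h : c.BaseFam s δ r bd O m) :
    DifferentiableOn ℂ (fun v => colH 𝒞 𝓔 s (O v)) (ball 0 δ) :=
  adm_differentiableOn hs h (base_adm h)

theorem admFam_differentiableOn {P : Type} [NormedAddCommGroup P] [NormedSpace ℂ P] {Ω : Set P}
    {O' : P → VC 𝒞 → σ → ℝ × ℝ → ℂ} {m' : P → VC 𝒞 → ν → ℂ} {z : P → τ → ℂ} (hs : 𝓔.w0 < s)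
    (h : c.BaseFam s δ r bd O m) (h' : AdmFam s δ ε O m Ω O' m' z) :
    DifferentiableOn ℂ (fun q : P × VC 𝒞 => colH 𝒞 𝓔 s (O' q.1 q.2)) (Ω ×ˢ ball 0 δ) := by
  obtain ⟨C, hC⟩ := h.bd2 (s + 9)
  refine differentiableOn_colH (μ := fun q : P × VC 𝒞 => O' q.1 q.2) hs (h'.opn.prod isOpen_ball)
    (η := ε + C) (fun q hq => (h'.adm _ hq.1).col _ hq.2) (fun q hq j p hp => ?_) h'.hol
  linarith [norm_le_norm_add_norm_sub' (pj (O' q.1 q.2 j) p) (pj (O q.2 j) p), hC _ hq.2 j p hp,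
    (h'.adm _ hq.1).close _ hq.2 j p hp]

/-- the collar map of the base family is `O(‖v‖)`, that of admissible data is close to it -/
theorem exists_base_bd (hs : 𝓔.w0 < s) (h : c.BaseFam s δ r bd O m) : ∃ K, 0 ≤ K ∧
    (∀ v ∈ ball (0 : VC 𝒞) δ, ‖colH 𝒞 𝓔 s (O v)‖ ≤ K) ∧
    (∀ v ∈ ball (0 : VC 𝒞) δ, ‖colH 𝒞 𝓔 s (O v)‖ ≤ K * ‖v‖) ∧
    ∀ ε O' m', 0 ≤ ε → Adm s δ ε O m O' m' → ∀ v ∈ ball (0 : VC 𝒞) δ,
      ‖colH 𝒞 𝓔 s (O' v) - colH 𝒞 𝓔 s (O v)‖ ≤ K * ε := by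
  obtain ⟨C, hC⟩ := h.bd2 (s + 9)
  obtain ⟨K, hK0, hK⟩ := exists_colH 𝓔 𝒞 hs
  obtain ⟨K', hK0', hK'⟩ := exists_colH_bd 𝓔 𝒞 hs
  have hδ := h.pos
  have h1 : ∀ v ∈ ball (0 : VC 𝒞) δ, ‖colH 𝒞 𝓔 s (O v)‖ ≤ K' * |C| := fun v hv =>
    (hK' _ _ (abs_nonneg C) (base_col h hv) fun j p hp => (hC v hv j p hp).trans (le_abs_self C)).1
  have h2 : 0 ≤ K' * |C| := by positivity
  have h3 : 0 ≤ K' * |C| / (δ / 2) := by positivity
  refine ⟨K + K' * |C| + K' * |C| / (δ / 2), by positivity, fun v hv => by linarith [h1 v hv],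
    fun v hv => ?_, fun ε O' m' hε h' v hv => ?_⟩
  · refine le_trans ?_ (mul_le_mul_of_nonneg_right (by linarith : K' * |C| / (δ / 2) ≤ _)
      (norm_nonneg v))
    rcases lt_or_ge ‖v‖ (δ / 2) with h4 | h4
    · have := lip_inner (r := δ / 2) (x := v) (y := 0) (by positivity)
        (base_differentiableOn (𝓔 := 𝓔) hs h) h1 (by rw [mem_ball_zero_iff]; linarith)
        (mem_ball_self (by linarith))
      rwa [base_colH_zero h, sub_zero, sub_zero] at this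
    · refine (h1 v hv).trans ?_
      rw [div_mul_eq_mul_div, le_div_iff₀ (by positivity)]
      exact mul_le_mul_of_nonneg_left h4 h2
  · exact (hK _ _ ε hε (h'.col v hv) (base_col h hv) (h'.close v hv)).trans
      (mul_le_mul_of_nonneg_right (by linarith) hε)

end Vale.Agent.P218CQ
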