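import Vale.Agent.P218CQ.OMap
import Vale.Agent.P218CO.IFT
import Vale.Agent.P218GC.Psi
import Vale.Agent.P218CJ.Lim

/-! # The soft part of the core theory (helper40) -/

open Set Filter Metric Topology MeasureTheory
open scoped ContDiff

noncomputable section

set_option linter.unusedSectionVars false
set_option linter.unusedVariables false

namespace Vale.Agent.P218CQ

open Vale.Agent.P218VA Vale.Agent.P218MP Vale.Agent.P272.K.LIN Vale.Agent.P218CO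
open Vale.Agent.P218GC (psi_eq psi_real psi_zero mom_ofR)

variable {σ β Λ ν τ M : Type} [TopologicalSpace M] [ChartedSpace E2 M] {𝒞 : Cov E2 M} [T2Space M]
  [RSm E2 M] [CompactSpace M] [Fintype σ] [Fintype β] [Fintype Λ] [Fintype ν] [Fintype τ]

/-- the coordinates of the target space -/
def yL : M ⊕ ν ⊕ τ → YY 𝒞 ν τ →L[ℂ] ℂ :=
  Sum.elim (fun x => (evalK ℂ x).comp (ContinuousLinearMap.fst ℂ _ _))
    (Sum.elim (fun i => (ContinuousLinearMap.proj i).comp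
        ((ContinuousLinearMap.fst ℂ _ _).comp (ContinuousLinearMap.snd ℂ _ _)))
      fun i => (ContinuousLinearMap.proj i).comp
        ((ContinuousLinearMap.snd ℂ _ _).comp (ContinuousLinearMap.snd ℂ _ _)))

lemma yL_ext {y : YY 𝒞 ν τ} (h : ∀ i, yL i y = 0) : y = 0 :=
  Prod.ext (Hol.ext fun x => h (.inl x))
    (Prod.ext (funext fun i => h (.inr (.inl i))) (funext fun i => h (.inr (.inr i))))

/-- real points of the domain -/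
def RX : Set (XX 𝒞 β Λ) := {x | x.1.im = 0 ∧ star x.2 = x.2}

lemma isClosed_RX : IsClosed (RX : Set (XX 𝒞 β Λ)) :=
  (Cx.isClosed_real.preimage continuous_fst).inter
    (isClosed_eq (continuous_star.comp continuous_snd) continuous_snd)

lemma RX_sub {x y : XX 𝒞 β Λ} (hx : x ∈ RX) (hy : y ∈ RX) : x - y ∈ RX :=
  ⟨by rw [Prod.fst_sub, Cx.im_sub, hx.1, hy.1, sub_zero],
    by rw [Prod.snd_sub, star_sub, hx.2, hy.2]⟩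

lemma RX_smul {x : XX 𝒞 β Λ} (hx : x ∈ RX) (t : ℝ) : (t : ℂ) • x ∈ RX :=
  ⟨by rw [Prod.smul_fst, Cx.im_smul, hx.1]; simp, by
    rw [Prod.smul_snd, star_smul, hx.2]; simp⟩

lemma exists_RX (x : XX 𝒞 β Λ) : ∃ a ∈ RX, ∃ b ∈ RX, x = a + Complex.I • b :=
  ⟨(Cx.ofR x.1.re, fun i => (x.2.1 i).re, fun k => (x.2.2 k).re),
    ⟨by simp, by ext <;> simp⟩, (Cx.ofR x.1.im, fun i => (x.2.1 i).im, fun k => (x.2.2 k).im),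
    ⟨by simp, by ext <;> simp⟩, Prod.ext (Cx.re_add_im x.1).symm
      (Prod.ext (funext fun i => by simp [mul_comm Complex.I])
        (funext fun i => by simp [mul_comm Complex.I]))⟩

lemma symm_real (T : XX 𝒞 β Λ ≃L[ℂ] YY 𝒞 ν τ) (hT : ∀ x ∈ RX, ∀ i, (yL i (T x)).im = 0)
    {y : YY 𝒞 ν τ} (hy : ∀ i, (yL i y).im = 0) : T.symm y ∈ RX := by
  obtain ⟨a, ha, b, hb, h⟩ := exists_RX (T.symm y)
  have h1 : y = T a + Complex.I • T b := by rw [← map_smul, ← map_add, ← h, T.apply_symm_apply]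
  have h2 : T b = 0 := yL_ext fun i => by
    have h3 := hy i
    rw [h1, map_add, map_smul, smul_eq_mul, Complex.add_im, hT a ha, Complex.I_mul_im,
      zero_add] at h3
    exact Complex.ext h3 (hT b hb i)
  rw [h, T.injective (h2.trans (map_zero T).symm), smul_zero, add_zero]
  exact ha

/-- the system as a map between Banach spaces -/
def FF (c : CoreOp σ β M) (s : ℝ) (eL : (Λ → ℂ) →L[ℂ] Hw 𝒞 ℂ) (L : VC 𝒞 →L[ℂ] τ → ℂ)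
    (O : VC 𝒞 → σ → ℝ × ℝ → ℂ) (m : VC 𝒞 → ν → ℂ) (z : τ → ℂ) (x : XX 𝒞 β Λ) : YY 𝒞 ν τ :=
  (Nem (𝒞.w (1 / 2)) (c.Psi 𝒞 s) (fib (x.1, colH 𝒞 c.𝓔 s (O x.1), x.2.1)) - eL x.2.2,
    m x.1, L x.1 - z)

lemma exists_eL (𝒞 : Cov E2 M) {e : Λ → M → ℝ} (he : ∀ k, CkFn E2 1 (e k)) :
    ∃ eL : (Λ → ℂ) →L[ℂ] Hw 𝒞 ℂ, ∀ l x, eL l x = ∑ k, l k * e k x := by
  refine ⟨∑ k, (ContinuousLinearMap.proj k : (Λ → ℂ) →L[ℂ] ℂ).smulRight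
    (Hol.map Complex.ofRealCLM (𝒞.ofCk (α := 1 / 2) (by norm_num) (by norm_num) (e k) (he k))),
    fun l x => ?_⟩
  rw [sum_apply, Hol.sum_apply]
  rfl

variable [MeasurableSpace M] [BorelSpace M] {c : CoreOp σ β M} {s δ r R A : ℝ} {μ0 : Measure M}
  {e : Λ → M → ℝ} {e' : τ → M → ℝ} {bd : σ → ℝ → (ν → ℂ) →L[ℂ] ℂ} {O : VC 𝒞 → σ → ℝ × ℝ → ℂ}
  {m : VC 𝒞 → ν → ℂ} {eL : (Λ → ℂ) →L[ℂ] Hw 𝒞 ℂ} {L : VC 𝒞 →L[ℂ] τ → ℂ}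

lemma exists_rad (hs : c.𝓔.w0 < s) (h : c.BaseFam s δ r bd O m) (hR : 0 < R) :
    ∃ R₁ ε₀ : ℝ, 0 < R₁ ∧ R₁ ≤ δ ∧ R₁ ≤ 1 / 2 ∧ 0 < ε₀ ∧ ∀ x ∈ ball (0 : XX 𝒞 β Λ) R₁,
      ∀ μ : σ → ℝ × ℝ → ℂ, (∀ j, Col s (μ j)) →
      (∀ j (p : ℝ × ℝ), p.1 ∈ Ioo s (s + 9) → ‖pj (μ j) p - pj (O x.1 j) p‖ ≤ 2 * ε₀) →
      fib (x.1, colH 𝒞 c.𝓔 s μ, x.2.1) ∈ ball (0 : Hw 𝒞 (FV 𝒞 σ β)) (R / 4) := by
  obtain ⟨K, hK0, -, hK, -⟩ := exists_base_bd (𝓔 := c.𝓔) hs h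
  obtain ⟨K', hK0', hK'⟩ := exists_colH c.𝓔 𝒞 hs
  set N := ‖(fib : _ →L[ℂ] Hw 𝒞 (FV 𝒞 σ β))‖ with hN
  have hN0 : 0 ≤ N := norm_nonneg _
  set κ := R / (16 * (N + 1)) with hκ
  have hκ0 : 0 < κ := by positivity
  have hδ := h.pos
  refine ⟨min δ (min (1 / 2) (κ / (K + 1))), κ / (2 * (K' + 1)), by positivity, min_le_left _ _,
    (min_le_right _ _).trans (min_le_left _ _), by positivity, fun x hx μ hμ hb => ?_⟩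
  rw [mem_ball_zero_iff, lt_min_iff, lt_min_iff] at hx
  have h1 := (lt_div_iff₀ (by positivity)).1 hx.2.2
  have hv : x.1 ∈ ball (0 : VC 𝒞) δ := mem_ball_zero_iff.2 ((norm_fst_le x).trans_lt hx.1)
  have h2 := hK' μ (O x.1) _ (by positivity) hμ (base_col h hv) hb
  have h3 : K' * (2 * (κ / (2 * (K' + 1)))) ≤ κ := by
    rw [show 2 * (κ / (2 * (K' + 1))) = κ / (K' + 1) by field_simp, ← mul_div_assoc,
      div_le_iff₀ (by positivity)]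
    nlinarith
  have h4 := (hK _ hv).trans (mul_le_mul_of_nonneg_left (norm_fst_le x) hK0)
  have h5 := norm_nonneg x
  have h6 := mul_nonneg hK0 h5
  have h7 : ‖(x.1, colH 𝒞 c.𝓔 s μ, x.2.1)‖ ≤ 2 * κ := by
    refine max_le (by linarith [norm_fst_le x]) (max_le ?_ ?_)
    · linarith [norm_le_norm_add_norm_sub' (colH 𝒞 c.𝓔 s μ) (colH 𝒞 c.𝓔 s (O x.1))]
    · linarith [(norm_fst_le x.2).trans (norm_snd_le x)]
  rw [mem_ball_zero_iff]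
  refine (((fib : _ →L[ℂ] Hw 𝒞 (FV 𝒞 σ β)).le_opNorm _).trans
    (mul_le_mul_of_nonneg_left h7 hN0)).trans_lt ?_
  have h8 : 16 * (N + 1) * κ = R := by rw [hκ]; field_simp
  nlinarith

lemma nem_eq (hc : c.Good s) (hN : NemOK (𝒞.w (1 / 2)) (c.Psi 𝒞 s) R A)
    (heL : ∀ l x, eL l x = ∑ k, l k * e k x) {x : XX 𝒞 β Λ} (hx : ‖x‖ < 1 / 2)
    {μ : σ → ℝ × ℝ → ℂ} (hμ : ∀ j, Col s (μ j))
    (hf : fib (x.1, colH 𝒞 c.𝓔 s μ, x.2.1) ∈ ball (0 : Hw 𝒞 (FV 𝒞 σ β)) (R / 4)) (y : M) :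
    (Nem (𝒞.w (1 / 2)) (c.Psi 𝒞 s) (fib (x.1, colH 𝒞 c.𝓔 s μ, x.2.1)) - eL x.2.2) y =
      c.sysFun s e (fnC x.1) x.2.1 x.2.2 μ y := by
  rw [Hol.sub_apply, hN.apply (ball_subset_ball (by linarith [hN.pos]) hf), fib_apply, heL]
  exact psi_eq hc x.1 ((norm_fst_le x).trans_lt hx)
    (by linarith [(norm_fst_le x.2).trans (norm_snd_le x)]) _ (colH_Y hc.lev hμ) e x.2.2 y

lemma FF_real (hc : c.Good s) (hN : NemOK (𝒞.w (1 / 2)) (c.Psi 𝒞 s) R A)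
    (heL : ∀ l x, eL l x = ∑ k, l k * e k x) (hL : ∀ v, L v = mom μ0 e' (fnC v))
    {O' : VC 𝒞 → σ → ℝ × ℝ → ℂ} {m' : VC 𝒞 → ν → ℂ} {z : τ → ℂ} {x : XX 𝒞 β Λ} (hx : x ∈ RX)
    (hμ : ∀ j, Col s (O' x.1 j))
    (hf : fib (x.1, colH 𝒞 c.𝓔 s (O' x.1), x.2.1) ∈ ball (0 : Hw 𝒞 (FV 𝒞 σ β)) (R / 4))
    (hz : star z = z) (hm : ∀ i, (m' x.1 i).im = 0)
    (hr : ∀ j (p : ℝ × ℝ), p.1 ∈ Ioo s (s + 9) → (O' x.1 j p).im = 0) (i : M ⊕ ν ⊕ τ) :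
    (yL i (FF c s eL L O' m' z x)).im = 0 := by
  rcases i with y | i | i
  · show ((Nem (𝒞.w (1 / 2)) (c.Psi 𝒞 s) (fib (x.1, colH 𝒞 c.𝓔 s (O' x.1), x.2.1)) -
      eL x.2.2) y).im = 0
    have h1 : JH x.1 y = Cx.ofR (JR x.1.re y) := by rw [← JH_ofR, ← Cx.eq_ofR hx.1]
    rw [Hol.sub_apply, hN.apply (ball_subset_ball (by linarith [hN.pos]) hf), fib_apply, heL,
      Complex.sub_im, h1, psi_real hc y _ _
        (Prod.ext (star_colH hc.lev hμ hr y) (congrArg Prod.fst hx.2)), Complex.im_sum, zero_sub,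
      neg_eq_zero]
    refine Finset.sum_eq_zero fun k _ => ?_
    rw [Complex.im_mul_ofReal, Complex.conj_eq_iff_im.1 (congrFun (congrArg Prod.snd hx.2) k),
      zero_mul]
  · exact hm i
  · show (L x.1 i - z i).im = 0
    rw [hL, Cx.eq_ofR hx.1, mom_ofR, Complex.sub_im, Complex.ofReal_im,
      Complex.conj_eq_iff_im.1 (congrFun hz i), sub_zero]

lemma differentiableOn_FF (hN : NemOK (𝒞.w (1 / 2)) (c.Psi 𝒞 s) R A) {P : Type}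
    [NormedAddCommGroup P] [NormedSpace ℂ P] {U : Set P} {x : P → XX 𝒞 β Λ}
    {O' : P → VC 𝒞 → σ → ℝ × ℝ → ℂ} {m' : P → VC 𝒞 → ν → ℂ} {z : P → τ → ℂ}
    (hx : DifferentiableOn ℂ x U)
    (hO : DifferentiableOn ℂ (fun a => colH 𝒞 c.𝓔 s (O' a (x a).1)) U)
    (hm : DifferentiableOn ℂ (fun a => m' a (x a).1) U) (hz : DifferentiableOn ℂ z U)
    (hf : ∀ a ∈ U, fib ((x a).1, colH 𝒞 c.𝓔 s (O' a (x a).1), (x a).2.1) ∈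
      ball (0 : Hw 𝒞 (FV 𝒞 σ β)) (R / 4)) :
    DifferentiableOn ℂ (fun a => FF c s eL L (O' a) (m' a) (z a) (x a)) U :=
  ((hN.differentiableOn.comp (fib.differentiable.comp_differentiableOn
    (hx.fst.prodMk (hO.prodMk hx.snd.fst))) fun a ha =>
      ball_subset_ball (by linarith [hN.pos]) (hf a ha)).sub
    (eL.differentiable.comp_differentiableOn hx.snd.snd)).prodMk
    (hm.prodMk ((L.differentiable.comp_differentiableOn hx.fst).sub hz))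

lemma nem_lip (hN : NemOK (𝒞.w (1 / 2)) (c.Psi 𝒞 s) R A) {v : VC 𝒞} {B : β → ℂ}
    {o o' : Hw 𝒞 (σ → T3 ℂ)} (h : fib (v, o, B) ∈ ball (0 : Hw 𝒞 (FV 𝒞 σ β)) (R / 4))
    (h' : fib (v, o', B) ∈ ball (0 : Hw 𝒞 (FV 𝒞 σ β)) (R / 4)) :
    ‖Nem (𝒞.w (1 / 2)) (c.Psi 𝒞 s) (fib (v, o, B)) - Nem (𝒞.w (1 / 2)) (c.Psi 𝒞 s) (fib (v, o', B))‖
      ≤ 12 * A / R * ‖(fib : _ →L[ℂ] Hw 𝒞 (FV 𝒞 σ β))‖ * ‖o - o'‖ := by
  have h1 := hN.pos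
  have h2 := hN.nonneg
  refine (hN.lip h h').trans ?_
  rw [mul_assoc (12 * A / R), ← map_sub]
  refine mul_le_mul_of_nonneg_left (((fib : _ →L[ℂ] Hw 𝒞 (FV 𝒞 σ β)).le_opNorm _).trans
    (le_of_eq ?_)) (by positivity)
  simp [Prod.norm_def]

lemma mem_fst {ρ δ : ℝ} (h : ρ ≤ δ) {x : XX 𝒞 β Λ} (hx : x ∈ ball (0 : XX 𝒞 β Λ) ρ) :
    x.1 ∈ ball (0 : VC 𝒞) δ :=
  mem_ball_zero_iff.2 (((norm_fst_le x).trans_lt (mem_ball_zero_iff.1 hx)).trans_le h)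

/-- the base map near the origin -/
theorem exists_base (hc : c.Good s) (h : c.BaseFam s δ r bd O m)
    (hN : NemOK (𝒞.w (1 / 2)) (c.Psi 𝒞 s) R A) (heL : ∀ l x, eL l x = ∑ k, l k * e k x)
    (hL : ∀ v, L v = mom μ0 e' (fnC v)) : FF c s eL L O m 0 (0 : XX 𝒞 β Λ) = 0 ∧ ∃ R₁ > 0,
      DifferentiableOn ℂ (FF c s eL L O m 0) (ball (0 : XX 𝒞 β Λ) R₁) ∧
      (∀ x ∈ ball (0 : XX 𝒞 β Λ) R₁, ∀ y,
        (FF c s eL L O m 0 x).1 y = c.sysFun s e (fnC x.1) x.2.1 x.2.2 (O x.1) y) ∧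
      ∀ x ∈ (RX : Set (XX 𝒞 β Λ)), ∀ i, (yL i (fderiv ℂ (FF c s eL L O m 0) 0 x)).im = 0 := by
  obtain ⟨R₁, ε₀, hR₁, hδ, h2, hε₀, hf⟩ := exists_rad (Λ := Λ) hc.lev h hN.pos
  have h3 := fun x hx => hf x hx (O x.1) (base_col h (mem_fst hδ hx)) fun j p hp => by
    rw [sub_self, norm_zero]; positivity
  have h4 : DifferentiableOn ℂ (FF c s eL L O m 0) (ball (0 : XX 𝒞 β Λ) R₁) :=
    differentiableOn_FF (x := id) (O' := fun _ => O) (m' := fun _ => m) (z := fun _ => 0) hN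
      differentiableOn_id ((base_differentiableOn hc.lev h).comp differentiableOn_fst
        fun x hx => mem_fst hδ hx) (h.holm.comp differentiableOn_fst fun x hx => mem_fst hδ hx)
      (differentiableOn_const _) h3
  refine ⟨?_, R₁, hR₁, h4, fun x hx y => nem_eq hc hN heL
    ((mem_ball_zero_iff.1 hx).trans_le h2) (base_col h (mem_fst hδ hx)) (h3 x hx) y,
    fun x hx i => ?_⟩
  · refine Prod.ext (Hol.ext fun y => ?_) (Prod.ext h.mzero (by simp [FF]))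
    have h5 : ((0 : VC 𝒞), colH 𝒞 c.𝓔 s (O 0), (0 : β → ℂ)) = 0 := by rw [base_colH_zero h]; rfl
    show (Nem (𝒞.w (1 / 2)) (c.Psi 𝒞 s) (fib ((0 : VC 𝒞), colH 𝒞 c.𝓔 s (O 0), (0 : β → ℂ))) -
      eL 0) y = 0
    rw [h5, map_zero, map_zero, sub_zero, hN.apply (mem_ball_self (half_pos hN.pos))]
    exact psi_zero hc y
  · have h5 := P218CJ.im_fderiv_eq_zero hR₁ ((yL i).differentiable.comp_differentiableOn h4)
      (h := x) fun t ht => FF_real hc hN heL hL (RX_smul hx t) (base_col h (mem_fst hδ ht))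
        (h3 _ ht) (star_zero _) (h.real _ (mem_fst hδ ht) (RX_smul hx t).1).2
        (fun j p hp => (h.real _ (mem_fst hδ ht) (RX_smul hx t).1).1 j p hp.1.le) i
    rwa [((yL i).hasFDerivAt.comp 0
      (h4.differentiableAt (ball_mem_nhds _ hR₁)).hasFDerivAt).fderiv] at h5

/-- the data used by the implicit function theorem -/
structure Pre (c : CoreOp σ β M) (s δ R : ℝ) (eL : (Λ → ℂ) →L[ℂ] Hw 𝒞 ℂ) (L : VC 𝒞 →L[ℂ] τ → ℂ)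
    (O : VC 𝒞 → σ → ℝ × ℝ → ℂ) (m : VC 𝒞 → ν → ℂ) (T : XX 𝒞 β Λ ≃L[ℂ] YY 𝒞 ν τ)
    (ρ ε ε₀ : ℝ) : Prop where
  pos : 0 < ρ
  le : ρ ≤ δ
  le' : ρ ≤ 1 / 4
  epos : 0 < ε
  ele : ε ≤ ε₀
  mem : ∀ x ∈ ball (0 : XX 𝒞 β Λ) ρ, ∀ μ : σ → ℝ × ℝ → ℂ, (∀ j, Col s (μ j)) →
    (∀ j (p : ℝ × ℝ), p.1 ∈ Ioo s (s + 9) → ‖pj (μ j) p - pj (O x.1 j) p‖ ≤ 2 * ε₀) →
    fib (x.1, colH 𝒞 c.𝓔 s μ, x.2.1) ∈ ball (0 : Hw 𝒞 (FV 𝒞 σ β)) (R / 4)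
  near : ∀ O' m' z, Adm s δ ε O m O' m' → ‖z‖ ≤ ε →
    Near (FF c s eL L O' m' z) T ρ ∧ 2 * ‖T.symm (FF c s eL L O' m' z 0)‖ < ρ

lemma exists_lipK (hc : c.Good s) (hN : NemOK (𝒞.w (1 / 2)) (c.Psi 𝒞 s) R A) :
    ∃ K, 1 ≤ K ∧ ∀ (v : VC 𝒞) (B : β → ℂ) (μ μ' : σ → ℝ × ℝ → ℂ) (η : ℝ), 0 ≤ η →
      (∀ j, Col s (μ j)) → (∀ j, Col s (μ' j)) →
      fib (v, colH 𝒞 c.𝓔 s μ, B) ∈ ball (0 : Hw 𝒞 (FV 𝒞 σ β)) (R / 4) →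
      fib (v, colH 𝒞 c.𝓔 s μ', B) ∈ ball (0 : Hw 𝒞 (FV 𝒞 σ β)) (R / 4) →
      (∀ j (p : ℝ × ℝ), p.1 ∈ Ioo s (s + 9) → ‖pj (μ j) p - pj (μ' j) p‖ ≤ η) → ∀ g : Hw 𝒞 ℂ,
      ‖(Nem (𝒞.w (1 / 2)) (c.Psi 𝒞 s) (fib (v, colH 𝒞 c.𝓔 s μ, B)) - g) -
        (Nem (𝒞.w (1 / 2)) (c.Psi 𝒞 s) (fib (v, colH 𝒞 c.𝓔 s μ', B)) - g)‖ ≤ K * η := by
  obtain ⟨K, hK0, hK⟩ := exists_colH c.𝓔 𝒞 hc.lev
  have hR := hN.pos
  have hA := hN.nonneg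
  refine ⟨12 * A / R * ‖(fib : _ →L[ℂ] Hw 𝒞 (FV 𝒞 σ β))‖ * K + 1,
    le_add_of_nonneg_left (by positivity), fun v B μ μ' η hη h3 h4 h5 h6 h7 g => ?_⟩
  rw [sub_sub_sub_cancel_right]
  refine (nem_lip hN h5 h6).trans ((mul_le_mul_of_nonneg_left (hK μ μ' η hη h3 h4 h7)
    (by positivity)).trans ?_)
  rw [← mul_assoc, add_mul]
  linarith

lemma norm_FF_le {O' : VC 𝒞 → σ → ℝ × ℝ → ℂ} {m' : VC 𝒞 → ν → ℂ} {z : τ → ℂ} {x : XX 𝒞 β Λ}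
    {a : ℝ} (h1 : ‖Nem (𝒞.w (1 / 2)) (c.Psi 𝒞 s) (fib (x.1, colH 𝒞 c.𝓔 s (O' x.1), x.2.1)) -
      eL x.2.2‖ ≤ a) (h2 : ‖m' x.1‖ ≤ a) (h3 : ‖L x.1 - z‖ ≤ a) : ‖FF c s eL L O' m' z x‖ ≤ a :=
  max_le h1 (max_le h2 h3)

variable {T : XX 𝒞 β Λ ≃L[ℂ] YY 𝒞 ν τ} {ρ ε ε₀ : ℝ}

theorem exists_pre (hc : c.Good s) (h : c.BaseFam s δ r bd O m)
    (hN : NemOK (𝒞.w (1 / 2)) (c.Psi 𝒞 s) R A) (hF0 : FF c s eL L O m 0 (0 : XX 𝒞 β Λ) = 0)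
    (hT : fderiv ℂ (FF c s eL L O m 0) 0 = T) {ρ₀ : ℝ} (hρ₀ : 0 < ρ₀) :
    ∃ ρ ε ε₀, ρ ≤ ρ₀ ∧ Pre c s δ R eL L O m T ρ ε ε₀ := by
  obtain ⟨R₂, ε₀, hR₂, hδ₂, h2₂, hε₀, hf₂⟩ := exists_rad (Λ := Λ) hc.lev h hN.pos
  obtain ⟨K, hK1, hK⟩ := exists_lipK hc hN
  obtain ⟨R₁, hR₁, h1, h1'⟩ : ∃ R₁, 0 < R₁ ∧ R₁ ≤ R₂ ∧ R₁ ≤ ρ₀ :=
    ⟨min R₂ ρ₀, lt_min hR₂ hρ₀, min_le_left _ _, min_le_right _ _⟩
  have hδ : R₁ ≤ δ := h1.trans hδ₂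
  have hR := hN.pos
  have hA := hN.nonneg
  have hfa : ∀ {ε O' m'}, ε ≤ ε₀ → Adm s δ ε O m O' m' → ∀ x ∈ ball (0 : XX 𝒞 β Λ) R₁,
      fib (x.1, colH 𝒞 c.𝓔 s (O' x.1), x.2.1) ∈ ball (0 : Hw 𝒞 (FV 𝒞 σ β)) (R / 4) :=
    fun hε ha x hx => hf₂ x (ball_subset_ball h1 hx) _ (ha.col _ (mem_fst hδ hx)) fun j p hp =>
      (ha.close _ (mem_fst hδ hx) j p hp).trans (by linarith)
  have hda : ∀ {ε O' m'} z, ε ≤ ε₀ → Adm s δ ε O m O' m' →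
      DifferentiableOn ℂ (FF c s eL L O' m' z) (ball (0 : XX 𝒞 β Λ) R₁) :=
    fun {ε O' m'} z hε ha =>
      differentiableOn_FF (x := id) (O' := fun _ => O') (m' := fun _ => m') (z := fun _ => z) hN
        differentiableOn_id ((adm_differentiableOn hc.lev h ha).comp differentiableOn_fst
          fun x hx => mem_fst hδ hx) (ha.holm.comp differentiableOn_fst fun x hx => mem_fst hδ hx)
        (differentiableOn_const _) (hfa hε ha)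
  obtain ⟨ρ, hρ, hρR, ε₁, hε₁, hG⟩ := uniform_ift (T := T) (M := 3 * A + ‖eL‖ + |r| + ‖L‖) hR₁
    (hda 0 hε₀.le (base_adm h)) (fun x hx => by
      have h3 : ‖x‖ ≤ 1 := (mem_ball_zero_iff.1 hx).le.trans (by linarith)
      have h4 := hN.norm_le (ball_subset_ball (by linarith) (hfa hε₀.le (base_adm h) x hx))
      have h5 := (eL.le_opNorm x.2.2).trans (mul_le_of_le_one_right (norm_nonneg _)
        (((norm_snd_le x.2).trans (norm_snd_le x)).trans h3))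
      have h6 := (L.le_opNorm x.1).trans (mul_le_of_le_one_right (norm_nonneg _)
        ((norm_fst_le x).trans h3))
      have h7 := (h.bdm _ (mem_fst hδ hx)).trans (le_abs_self r)
      have := norm_nonneg eL
      have := norm_nonneg L
      have := abs_nonneg r
      refine norm_FF_le ((norm_sub_le _ _).trans (by linarith)) (by linarith) ?_
      rw [sub_zero]; linarith) hT hF0
  have hρ1 : ρ ≤ R₁ := by linarith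
  obtain ⟨ε, hε, hεε, hεK⟩ : ∃ ε, 0 < ε ∧ ε ≤ ε₀ ∧ K * ε ≤ ε₁ :=
    ⟨min ε₀ (ε₁ / K), by positivity, min_le_left _ _, by
      rw [mul_comm, ← le_div_iff₀ (by positivity)]; exact min_le_right _ _⟩
  refine ⟨ρ, ε, ε₀, hρ1.trans h1', hρ, hρ1.trans hδ, by linarith, hε, hεε,
    fun x hx => hf₂ x (ball_subset_ball (hρ1.trans h1) hx), fun O' m' z ha hz =>
      hG _ (hda z hεε ha) fun x hx => ?_⟩
  have h3 : ε ≤ ε₁ := by nlinarith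
  refine max_le ((hK _ _ _ _ ε hε.le (ha.col _ (mem_fst hδ hx)) (base_col h (mem_fst hδ hx))
    (hfa hεε ha x hx) (hfa hε₀.le (base_adm h) x hx) (ha.close _ (mem_fst hδ hx)) _).trans hεK)
    (max_le ((ha.closem _ (mem_fst hδ hx)).trans h3) ?_)
  show ‖L x.1 - z - (L x.1 - 0)‖ ≤ ε₁
  rw [sub_sub_sub_cancel_left, zero_sub, norm_neg]
  exact hz.trans h3

namespace Pre

variable (P : Pre c s δ R eL L O m T ρ ε ε₀) {O' : VC 𝒞 → σ → ℝ × ℝ → ℂ} {m' : VC 𝒞 → ν → ℂ}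
  {z : τ → ℂ}
include P

lemma fa (ha : Adm s δ ε O m O' m') {x : XX 𝒞 β Λ} (hx : x ∈ ball (0 : XX 𝒞 β Λ) ρ) :
    fib (x.1, colH 𝒞 c.𝓔 s (O' x.1), x.2.1) ∈ ball (0 : Hw 𝒞 (FV 𝒞 σ β)) (R / 4) :=
  P.mem x hx _ (ha.col _ (mem_fst P.le hx)) fun j p hp =>
    (ha.close _ (mem_fst P.le hx) j p hp).trans (by linarith [P.ele, P.epos])

lemma half {x : XX 𝒞 β Λ} (hx : x ∈ ball (0 : XX 𝒞 β Λ) ρ) : ‖x‖ < 1 / 2 := by
  linarith [mem_ball_zero_iff.1 hx, P.le']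

lemma spec (hc : c.Good s) (hN : NemOK (𝒞.w (1 / 2)) (c.Psi 𝒞 s) R A)
    (heL : ∀ l x, eL l x = ∑ k, l k * e k x) (hL : ∀ v, L v = mom μ0 e' (fnC v))
    (ha : Adm s δ ε O m O' m') {x : XX 𝒞 β Λ} (h3 : x ∈ ball (0 : XX 𝒞 β Λ) ρ)
    (h4 : FF c s eL L O' m' z x = 0) :
    (∀ y, c.sysFun s e (fnC x.1) x.2.1 x.2.2 (O' x.1) y = 0) ∧ m' x.1 = 0 ∧
      mom μ0 e' (fnC x.1) = z := by
  refine ⟨fun y => ?_, congrArg (·.2.1) h4, ?_⟩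
  · rw [← nem_eq hc hN heL (P.half h3) (ha.col _ (mem_fst P.le h3)) (P.fa ha h3) y]
    exact congrArg (·.1 y) h4
  · rw [← hL]
    exact sub_eq_zero.1 (congrArg (·.2.2) h4)

lemma cmp (hc : c.Good s) (hN : NemOK (𝒞.w (1 / 2)) (c.Psi 𝒞 s) R A)
    (heL : ∀ l x, eL l x = ∑ k, l k * e k x) (hL : ∀ v, L v = mom μ0 e' (fnC v)) :
    ∃ C, 0 ≤ C ∧ ∀ O' m' z, Adm s δ ε O m O' m' → ‖z‖ ≤ ε → ∀ x ∈ ball (0 : XX 𝒞 β Λ) ρ,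
      ∀ μ : σ → ℝ × ℝ → ℂ, (∀ j, Col s (μ j)) → (∀ y, c.sysFun s e (fnC x.1) x.2.1 x.2.2 μ y = 0) →
      ∀ η, 0 ≤ η → (∀ j (p : ℝ × ℝ), p.1 ∈ Ioo s (s + 9) → ‖pj (μ j) p - pj (O' x.1 j) p‖ ≤ η) →
      ‖zeroOf (FF c s eL L O' m' z) ρ - x‖ ≤ C * (η + ‖m' x.1‖ + ‖mom μ0 e' (fnC x.1) - z‖) := by
  obtain ⟨K, hK1, hK⟩ := exists_lipK hc hN
  obtain ⟨N, hN0, hN'⟩ : ∃ N, 0 ≤ N ∧ ∀ y, ‖T.symm y‖ ≤ N * ‖y‖ :=
    ⟨_, norm_nonneg _, (T.symm : YY 𝒞 ν τ →L[ℂ] XX 𝒞 β Λ).le_opNorm⟩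
  have hρ := P.pos
  have hε₀ := P.epos.trans_le P.ele
  refine ⟨2 * N * K + 2 * ρ / ε₀, by positivity, fun O' m' z ha hz x hx μ hμ hs η hη hb => ?_⟩
  obtain ⟨h3, h4⟩ := (P.near O' m' z ha hz).1.zeroOf_spec (P.near O' m' z ha hz).2
  have h9 := (P.near O' m' z ha hz).1.sub_le h3 hx
  rw [h4, zero_sub, map_neg, norm_neg] at h9
  generalize zeroOf (FF c s eL L O' m' z) ρ = x' at h3 h9
  have a1 := norm_nonneg (m' x.1)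
  have a2 := norm_nonneg (mom μ0 e' (fnC x.1) - z)
  have a3 : 0 ≤ 2 * N * K := by positivity
  have a4 : 0 ≤ 2 * ρ / ε₀ := by positivity
  rcases le_total η ε₀ with h5 | h5
  · have hv := mem_fst P.le hx
    have h6 := P.mem x hx μ hμ fun j p hp => by
      linarith [norm_sub_le_norm_sub_add_norm_sub (pj (μ j) p) (pj (O' x.1 j) p) (pj (O x.1 j) p),
        hb j p hp, ha.close _ hv j p hp, P.ele]
    have h7 := hK _ _ μ _ η hη hμ (ha.col _ hv) h6 (P.fa ha hx) hb (eL x.2.2)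
    rw [show Nem (𝒞.w (1 / 2)) (c.Psi 𝒞 s) (fib (x.1, colH 𝒞 c.𝓔 s μ, x.2.1)) - eL x.2.2 = 0 from
      Hol.ext fun y => (nem_eq hc hN heL (P.half hx) hμ h6 y).trans (hs y), zero_sub,
      norm_neg] at h7
    have h8 : ‖FF c s eL L O' m' z x‖ ≤ K * (η + ‖m' x.1‖ + ‖mom μ0 e' (fnC x.1) - z‖) := by
      have b1 : η + ‖m' x.1‖ + ‖mom μ0 e' (fnC x.1) - z‖ ≤
          K * (η + ‖m' x.1‖ + ‖mom μ0 e' (fnC x.1) - z‖) := le_mul_of_one_le_left (by linarith) hK1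
      refine norm_FF_le (h7.trans (mul_le_mul_of_nonneg_left (by linarith) (by linarith)))
        (by linarith) ?_
      rw [hL]; linarith
    have h10 := (hN' _).trans (mul_le_mul_of_nonneg_left h8 hN0)
    have h11 := mul_nonneg a4 (add_nonneg (add_nonneg hη a1) a2)
    generalize η + ‖m' x.1‖ + ‖mom μ0 e' (fnC x.1) - z‖ = t at h10 h11 ⊢
    linarith
  · have h6 : ‖x' - x‖ ≤ 2 * ρ := (norm_sub_le _ _).trans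
      (by linarith [mem_ball_zero_iff.1 h3, mem_ball_zero_iff.1 hx])
    have h7 : 2 * ρ ≤ 2 * ρ / ε₀ * η := by
      rw [div_mul_eq_mul_div, le_div_iff₀ hε₀]
      exact mul_le_mul_of_nonneg_left h5 (by positivity)
    exact (h6.trans h7).trans (mul_le_mul (by linarith) (by linarith) hη (by linarith))

lemma real (hc : c.Good s) (hN : NemOK (𝒞.w (1 / 2)) (c.Psi 𝒞 s) R A)
    (heL : ∀ l x, eL l x = ∑ k, l k * e k x) (hL : ∀ v, L v = mom μ0 e' (fnC v))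
    (hT : ∀ x ∈ (RX : Set (XX 𝒞 β Λ)), ∀ i, (yL i (T x)).im = 0) (ha : Adm s δ ε O m O' m')
    (hz : ‖z‖ ≤ ε) (hz' : star z = z) (hr : ∀ v ∈ ball (0 : VC 𝒞) δ, v.im = 0 →
      star (m' v) = m' v ∧ ∀ j (p : ℝ × ℝ), p.1 ∈ Ioo s (s + 9) → (O' v j p).im = 0) :
    zeroOf (FF c s eL L O' m' z) ρ ∈ (RX : Set (XX 𝒞 β Λ)) :=
  (P.near O' m' z ha hz).1.zeroOf_mem (P.near O' m' z ha hz).2 isClosed_RX
    ⟨Cx.im_zero, star_zero _⟩ fun x hx hx' => RX_sub hx (symm_real T hT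
      (FF_real hc hN heL hL hx (ha.col _ (mem_fst P.le hx')) (P.fa ha hx') hz' (fun i =>
        Complex.conj_eq_iff_im.1 (congrFun (hr _ (mem_fst P.le hx') hx.1).1 i))
        (hr _ (mem_fst P.le hx') hx.1).2))

lemma hol (hc : c.Good s) (h : c.BaseFam s δ r bd O m) (hN : NemOK (𝒞.w (1 / 2)) (c.Psi 𝒞 s) R A)
    {Q : Type} [NormedAddCommGroup Q] [NormedSpace ℂ Q] {Ω : Set Q}
    {O' : Q → VC 𝒞 → σ → ℝ × ℝ → ℂ} {m' : Q → VC 𝒞 → ν → ℂ} {z : Q → τ → ℂ}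
    (ha : AdmFam s δ ε O m Ω O' m' z) :
    DifferentiableOn ℂ (fun a => zeroOf (FF c s eL L (O' a) (m' a) (z a)) ρ) Ω := by
  have h3 : MapsTo (fun q : Q × XX 𝒞 β Λ => (q.1, q.2.1)) (Ω ×ˢ ball 0 ρ) (Ω ×ˢ ball 0 δ) :=
    fun q hq => ⟨hq.1, mem_fst P.le hq.2⟩
  have h4 : DifferentiableOn ℂ (fun q : Q × XX 𝒞 β Λ => (q.1, q.2.1)) (Ω ×ˢ ball 0 ρ) :=
    differentiableOn_fst.prodMk differentiableOn_snd.fst
  have h5 : DifferentiableOn ℂ (fun q : Q × XX 𝒞 β Λ => colH 𝒞 c.𝓔 s (O' q.1 q.2.1))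
      (Ω ×ˢ ball 0 ρ) := by
    simpa only [Function.comp_def] using (admFam_differentiableOn (𝓔 := c.𝓔) hc.lev h ha).comp h4 h3
  have h6 : DifferentiableOn ℂ (fun q : Q × XX 𝒞 β Λ => m' q.1 q.2.1) (Ω ×ˢ ball 0 ρ) := by
    simpa only [Function.comp_def] using ha.holm.comp h4 h3
  have h7 : DifferentiableOn ℂ (fun q : Q × XX 𝒞 β Λ => z q.1) (Ω ×ˢ ball 0 ρ) :=
    ha.holz.comp differentiableOn_fst fun q hq => hq.1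
  have h8 : DifferentiableOn ℂ (fun q : Q × XX 𝒞 β Λ => FF c s eL L (O' q.1) (m' q.1) (z q.1) q.2)
      (Ω ×ˢ ball 0 ρ) :=
    differentiableOn_FF (x := fun q : Q × XX 𝒞 β Λ => q.2) (O' := fun q => O' q.1)
      (m' := fun q => m' q.1) (z := fun q => z q.1) hN differentiableOn_snd h5 h6 h7
      fun q hq => P.fa (ha.adm _ hq.1) hq.2
  have h9 := differentiableOn_zeroOf (T := T) ha.opn h8 fun a ha' => by
    simpa only using P.near _ _ _ (ha.adm a ha') (ha.small a ha')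
  simpa only using h9

end Pre

/-- **The fields `spec`, `cmp`, `real`, `hol` of the solver.** -/
theorem exists_soft (hc : c.Good s) (h : c.BaseFam s δ r bd O m)
    (hN : NemOK (𝒞.w (1 / 2)) (c.Psi 𝒞 s) R A) (heL : ∀ l x, eL l x = ∑ k, l k * e k x)
    (hL : ∀ v, L v = mom μ0 e' (fnC v)) (T : XX 𝒞 β Λ ≃L[ℂ] YY 𝒞 ν τ)
    (hT : fderiv ℂ (FF c s eL L O m 0) 0 = T) {ρ₀ : ℝ} (hρ₀ : 0 < ρ₀) :
    ∃ (ρ ε C : ℝ) (sol : (VC 𝒞 → σ → ℝ × ℝ → ℂ) → (VC 𝒞 → ν → ℂ) → (τ → ℂ) → XX 𝒞 β Λ),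
      0 < ρ ∧ ρ ≤ ρ₀ ∧ ρ ≤ δ ∧ ρ ≤ 1 / 4 ∧ 0 < ε ∧ 0 ≤ C ∧
    (∀ O' m' z, Adm s δ ε O m O' m' → ‖z‖ ≤ ε → sol O' m' z ∈ ball (0 : XX 𝒞 β Λ) ρ ∧
      (∀ y, c.sysFun s e (fnC (sol O' m' z).1) (sol O' m' z).2.1 (sol O' m' z).2.2
        (O' (sol O' m' z).1) y = 0) ∧ m' (sol O' m' z).1 = 0 ∧
        mom μ0 e' (fnC (sol O' m' z).1) = z) ∧
    (∀ O' m' z, Adm s δ ε O m O' m' → ‖z‖ ≤ ε → ∀ x ∈ ball (0 : XX 𝒞 β Λ) ρ,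
      ∀ μ : σ → ℝ × ℝ → ℂ, (∀ j, Col s (μ j)) → (∀ y, c.sysFun s e (fnC x.1) x.2.1 x.2.2 μ y = 0) →
      ∀ η, 0 ≤ η → (∀ j (p : ℝ × ℝ), p.1 ∈ Ioo s (s + 9) → ‖pj (μ j) p - pj (O' x.1 j) p‖ ≤ η) →
      ‖sol O' m' z - x‖ ≤ C * (η + ‖m' x.1‖ + ‖mom μ0 e' (fnC x.1) - z‖)) ∧
    (∀ O' m' z, Adm s δ ε O m O' m' → ‖z‖ ≤ ε → star z = z →
      (∀ v ∈ ball (0 : VC 𝒞) δ, v.im = 0 → star (m' v) = m' v ∧
        ∀ j (p : ℝ × ℝ), p.1 ∈ Ioo s (s + 9) → (O' v j p).im = 0) →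
      (sol O' m' z).1.im = 0 ∧ star (sol O' m' z).2 = (sol O' m' z).2) ∧
    ∀ {P : Type} [NormedAddCommGroup P] [NormedSpace ℂ P] (Ω : Set P)
      (O' : P → VC 𝒞 → σ → ℝ × ℝ → ℂ) (m' : P → VC 𝒞 → ν → ℂ) (z : P → τ → ℂ),
      AdmFam s δ ε O m Ω O' m' z → DifferentiableOn ℂ (fun a => sol (O' a) (m' a) (z a)) Ω := by
  obtain ⟨hF0, -, -, -, -, hre⟩ := exists_base hc h hN heL hL
  obtain ⟨ρ, ε, ε₀, hρ, P⟩ := exists_pre hc h hN hF0 hT hρ₀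
  obtain ⟨C, hC0, hC⟩ := P.cmp hc hN heL hL
  rw [hT] at hre
  refine ⟨ρ, ε, C, fun O' m' z => zeroOf (FF c s eL L O' m' z) ρ, P.pos, hρ, P.le, P.le', P.epos,
    hC0, fun O' m' z ha hz => ?_, hC, fun O' m' z ha hz hz' hr => P.real hc hN heL hL hre ha hz hz' hr,
    fun Ω O' m' z ha => P.hol hc h hN ha⟩
  obtain ⟨h3, h4⟩ := (P.near O' m' z ha hz).1.zeroOf_spec (P.near O' m' z ha hz).2
  exact ⟨h3, P.spec hc hN heL hL ha h3 h4⟩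

end Vale.Agent.P218CQ
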